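import Mathlib

/-!
**The commutators of the unitary elements close to one: the frame.**  `D` is a division algebra of
degree `n` over `K` with an involution, `N` its reduced norm, `ν` a finite family of ultrametric
absolute values of `D`, `OT` a subring of `K` (the elements integral at a finite set of places).
Everything is independent of the base field.
-/

open Module Polynomial
open scoped commutatorElement

set_option linter.unusedSectionVars false

namespace Vale.Agent.P011.H699.Odd

/-- `x` is close to one at the places above `OT`: `x = 1 + c a` with `a` integral over `OT`. -/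
def Near {K : Type} [Field K] (OT : Subring K) (R : Type) [Field R] [Algebra K R] (c : K)
    (x : R) : Prop :=
  ∃ a : R, ((algebraMap K R).comp OT.subtype).IsIntegralElem a ∧ x = 1 + algebraMap K R c * a

/-- The reduced norm of a division algebra of degree `n` with an involution. -/
structure Rn {K D : Type} [Field K] [StarRing K] [DivisionRing D] [StarRing D] [Algebra K D]
    (n : ℕ) (N : D →* K) : Prop where
  star_alg : ∀ c : K, star (algebraMap K D c) = algebraMap K D (star c)
  star : ∀ x : D, N (star x) = star (N x)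
  alg : ∀ a : K, N (algebraMap K D a) = a ^ n
  fld : ∀ (E : Type) [Field E] [Algebra K E] (φ : E →ₐ[K] D) (y : E), finrank K E = n →
    N (φ y) = Algebra.norm K y

/-- The unitary elements. -/
def Ug (D : Type) [DivisionRing D] [StarRing D] : Subgroup Dˣ where
  carrier := {u | (u : D) * star (u : D) = 1}
  mul_mem' := by
    intro a b h1 h3
    change (a : D) * star (a : D) = 1 at h1
    change (b : D) * star (b : D) = 1 at h3
    change ((a * b : Dˣ) : D) * star ((a * b : Dˣ) : D) = 1
    rw [Units.val_mul, star_mul, mul_assoc, ← mul_assoc (b : D), h3, one_mul, h1]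
  one_mem' := by
    change ((1 : Dˣ) : D) * star ((1 : Dˣ) : D) = 1
    rw [Units.val_one, star_one, one_mul]
  inv_mem' := by
    intro a h1
    change (a : D) * star (a : D) = 1 at h1
    have h3 : star (a : D) = ((a⁻¹ : Dˣ) : D) := by
      rw [← Units.mul_right_inj a, h1, Units.mul_inv]
    change ((a⁻¹ : Dˣ) : D) * star ((a⁻¹ : Dˣ) : D) = 1
    rw [← h3, star_star, h3, Units.inv_mul]

section

variable {K D : Type} [Field K] [StarRing K] [DivisionRing D] [StarRing D] [Algebra K D]

theorem mem_Ug {u : Dˣ} : u ∈ Ug D ↔ (u : D) * star (u : D) = 1 := Iff.rfl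

theorem star_eq {u : Dˣ} (hu : u ∈ Ug D) : star (u : D) = ((u⁻¹ : Dˣ) : D) := by
  rw [← Units.mul_right_inj u, mem_Ug.mp hu, Units.mul_inv]

/-- The unitary elements of reduced norm one. -/
def Gg (N : D →* K) : Subgroup Dˣ where
  carrier := {u | u ∈ Ug D ∧ N (u : D) = 1}
  mul_mem' := by
    rintro a b ⟨h1, h2⟩ ⟨h3, h4⟩
    exact ⟨mul_mem h1 h3, by rw [Units.val_mul, map_mul, h2, h4, one_mul]⟩
  one_mem' := ⟨one_mem _, by rw [Units.val_one, map_one]⟩
  inv_mem' := by
    rintro a ⟨h1, h2⟩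
    refine ⟨inv_mem h1, ?_⟩
    have h5 : N (a : D) * N ((a⁻¹ : Dˣ) : D) = 1 := by rw [← map_mul, Units.mul_inv, map_one]
    rwa [h2, one_mul] at h5

theorem mem_Gg {N : D →* K} {u : Dˣ} : u ∈ Gg N ↔ u ∈ Ug D ∧ N (u : D) = 1 := Iff.rfl

/-- The elements close to one for the absolute values `ν`. -/
def Bl {ι : Type} (ν : ι → AbsoluteValue D ℝ) (ε : ℝ) (u : Dˣ) : Prop :=
  ∀ i, ν i ((u : D) - 1) < ε

/-- A finite family of ultrametric absolute values which is stable under the involution. -/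
structure Fa {ι : Type} (ν : ι → AbsoluteValue D ℝ) : Prop where
  ult : ∀ i x y, ν i (x + y) ≤ max (ν i x) (ν i y)
  star : ∀ i, ∃ j, ∀ x : D, ν j x = ν i (star x)

/-- A family of functions on the elements of reduced norm one close to one, which are
multiplicative and invariant, and which is stable under the unitary elements. -/
structure Fam {E : Type} [CommGroup E] (N : D →* K) {ι : Type} (ν : ι → AbsoluteValue D ℝ)
    (ε : ℝ) (X : Set (Dˣ → E)) : Prop where
  mul : ∀ χ ∈ X, ∀ g h : Dˣ, g ∈ Gg N → Bl ν ε g → h ∈ Gg N → Bl ν ε h → χ (g * h) = χ g * χ h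
  inv : ∀ χ ∈ X, ∀ g h : Dˣ, g ∈ Gg N → h ∈ Gg N → Bl ν ε h → χ (g * h * g⁻¹) = χ h
  stab : ∀ χ ∈ X, ∀ u ∈ Ug D, (fun h => χ (u * h * u⁻¹)) ∈ X

/-- The reduced norm of `u` is `w / star w`. -/
def Qt (N : D →* K) (u : Dˣ) (w : K) : Prop := w ≠ 0 ∧ N (u : D) * star w = w

/-- **The two-field norm lemma** for the step `R' / R`: `Sp j P` says that the polynomial `P`
splits over the completions at the places of the set `j`. -/
def TN {J : Type} (OT : Subring K) (Sp : J → K[X] → Prop) (R R' : Type) [Field R] [Algebra K R]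
    [Field R'] [Algebra K R'] [Algebra R R'] (c c' : K) : Prop :=
  ∀ x : R, x ≠ 0 → Near OT R c x → ∃ j : J,
    ∀ (M : Type) [Field M] [Algebra K M] [Algebra R M] [IsScalarTower K R M]
      [FiniteDimensional R M] (P : K[X]), Sp j P → (P.map (algebraMap K R)).IsSplittingField R M →
      ∀ d : K, d ≠ 0 → ∃ (x₁ : R') (y₁ : M), x₁ ≠ 0 ∧ y₁ ≠ 0 ∧
        x = Algebra.norm R x₁ * Algebra.norm R y₁ ∧ Near OT R' c' x₁ ∧ Near OT M d y₁

/-- **The split elements**: products of given unitary elements by a small element of reduced norm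
one whose minimal polynomials have degree `n` and split at the places of the set `j`. -/
def SplE {J : Type} (n : ℕ) (N : D →* K) {ι : Type} (ν : ι → AbsoluteValue D ℝ)
    (Sp : J → K[X] → Prop) : Prop :=
  ∀ (j : J) (hs : Finset Dˣ), (∀ h ∈ hs, h ∈ Ug D) → ∀ ε : ℝ, 0 < ε →
    ∃ g : Dˣ, g ∈ Gg N ∧ Bl ν ε g ∧ ∀ h ∈ hs,
      (minpoly K ((h * g : Dˣ) : D)).natDegree = n ∧ Sp j (minpoly K ((h * g : Dˣ) : D))

/-- **The arithmetic step** `R' / R` with nearness predicates `P`, `P'` on `R`, `R'` and `PK` on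
`K`: an element `x` of `R` is, up to a norm from `R'`, the reduced norm of one element of each of
the fields `K(h g)`, `h ∈ hs`. -/
def StepH (N : D →* K) {ι : Type} (ν : ι → AbsoluteValue D ℝ) (PK : K → Prop)
    (R R' : Type) [Field R] [Algebra K R] [Field R'] [Algebra K R'] (P : R → Prop)
    (P' : R' → Prop) : Prop :=
  ∀ x : R, x ≠ 0 → P x → ∀ hs : Finset Dˣ, (∀ h ∈ hs, h ∈ Ug D) → ∀ ε : ℝ, 0 < ε →
    ∃ g : Dˣ, g ∈ Gg N ∧ Bl ν ε g ∧ ∃ x₁ : R', x₁ ≠ 0 ∧ P' x₁ ∧
      ∀ h ∈ hs, ∃ z : D, z ≠ 0 ∧ z ∈ Algebra.adjoin K {((h * g : Dˣ) : D)} ∧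
        N z * Algebra.norm K x₁ = Algebra.norm K x ∧ PK (N z) ∧ ∀ i, ν i (z - 1) < ε

/-- The invariance of the characters, for reduced norms which are norms from `R`. -/
def Cl1 {E : Type} [CommGroup E] (N : D →* K) (X : Set (Dˣ → E)) (h : Dˣ)
    (R : Type) [Field R] [Algebra K R] (P : R → Prop) : Prop :=
  ∀ χ ∈ X, ∀ x : R, x ≠ 0 → P x → ∀ u ∈ Ug D, Qt N u (Algebra.norm K x) →
    χ (u * h * u⁻¹) = χ h

/-- The commutators with `u₁`, for reduced norms which are norms from `R`. -/
def Cl3 {E : Type} [CommGroup E] (N : D →* K) {ι : Type}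
    (ν : ι → AbsoluteValue D ℝ) (ε : ℝ) (X : Set (Dˣ → E)) (u₁ : Dˣ) (R : Type) [Field R]
    [Algebra K R] (P : R → Prop) : Prop :=
  ∀ χ ∈ X, ∀ x : R, x ≠ 0 → P x → ∀ u ∈ Ug D, Bl ν ε u → Qt N u (Algebra.norm K x) →
    χ ⁅u₁, u⁆ = 1

end

end Vale.Agent.P011.H699.Odd
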