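import Vale.Agent.P011.H699.Odd.Frame

/-!
**The elements close to one**: functoriality, norms, absolute values.
-/

open Module Polynomial
open scoped commutatorElement

set_option linter.unusedSectionVars false

namespace Vale.Agent.P011.H699.Odd

variable {K : Type} [Field K] {OT : Subring K}

/-- integral elements -/
abbrev Itg (OT : Subring K) (R : Type) [Ring R] [Algebra K R] (a : R) : Prop :=
  ((algebraMap K R).comp OT.subtype).IsIntegralElem a

theorem Itg.map {R S : Type} [Ring R] [Algebra K R] [Ring S] [Algebra K S] (φ : R →ₐ[K] S)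
    {a : R} (ha : Itg OT R a) : Itg OT S (φ a) := by
  obtain ⟨p, hp, h⟩ := ha
  refine ⟨p, hp, ?_⟩
  have h1 := congrArg φ h
  rw [map_zero] at h1
  rw [← h1]
  simp only [eval₂_eq_sum_range, map_sum, map_mul, map_pow, RingHom.comp_apply]
  refine Finset.sum_congr rfl fun i _ => ?_
  rw [AlgHom.commutes]

theorem Itg.of_map {R S : Type} [Ring R] [Algebra K R] [Ring S] [Algebra K S] (φ : R →ₐ[K] S)
    (hφ : Function.Injective φ) {a : R} (ha : Itg OT S (φ a)) : Itg OT R a := by
  obtain ⟨p, hp, h⟩ := ha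
  refine ⟨p, hp, hφ ?_⟩
  rw [map_zero, ← h]
  simp only [eval₂_eq_sum_range, map_sum, map_mul, map_pow, RingHom.comp_apply]
  refine Finset.sum_congr rfl fun i _ => ?_
  rw [AlgHom.commutes]

section field

variable {R : Type} [Field R] [Algebra K R]

theorem Itg.add {a b : R} (ha : Itg OT R a) (hb : Itg OT R b) : Itg OT R (a + b) :=
  RingHom.IsIntegralElem.add _ ha hb

theorem Itg.mul {a b : R} (ha : Itg OT R a) (hb : Itg OT R b) : Itg OT R (a * b) :=
  RingHom.IsIntegralElem.mul _ ha hb

theorem Itg.alg {c : K} (hc : c ∈ OT) : Itg OT R (algebraMap K R c) :=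
  RingHom.isIntegralElem_map _ (x := (⟨c, hc⟩ : OT))

theorem Itg.zero : Itg OT R (0 : R) := by
  have h := Itg.alg (R := R) (zero_mem OT)
  rwa [map_zero] at h

theorem Itg.one : Itg OT R (1 : R) := by
  have h := Itg.alg (R := R) (one_mem OT)
  rwa [map_one] at h

theorem Near.mul {c : K} (hc : c ∈ OT) {x y : R} (hx : Near OT R c x) (hy : Near OT R c y) :
    Near OT R c (x * y) := by
  obtain ⟨a, ha, rfl⟩ := hx
  obtain ⟨b, hb, rfl⟩ := hy
  refine ⟨a + b + algebraMap K R c * (a * b), ?_, by ring⟩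
  exact Itg.add (Itg.add ha hb) (Itg.mul (Itg.alg hc) (Itg.mul ha hb))

theorem Near.one {c : K} : Near OT R c (1 : R) := ⟨0, Itg.zero, by ring⟩

theorem Near.mono {c c' : K} (hc : c' ∈ OT) {x : R} (hx : Near OT R (c * c') x) :
    Near OT R c x := by
  obtain ⟨a, ha, rfl⟩ := hx
  exact ⟨algebraMap K R c' * a, Itg.mul (Itg.alg hc) ha, by rw [map_mul]; ring⟩

theorem Near.map {S : Type} [Field S] [Algebra K S] (φ : R →ₐ[K] S) {c : K} {x : R}
    (hx : Near OT R c x) : Near OT S c (φ x) := by
  obtain ⟨a, ha, rfl⟩ := hx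
  exact ⟨φ a, Itg.map φ ha, by rw [map_add, map_one, map_mul, AlgHom.commutes]⟩

theorem Near.prod {c : K} (hc : c ∈ OT) (s : Multiset R) (hs : ∀ x ∈ s, Near OT R c x) :
    Near OT R c s.prod := by
  induction s using Multiset.induction_on with
  | empty => rw [Multiset.prod_zero]; exact Near.one
  | cons a s ih =>
    rw [Multiset.prod_cons]
    exact Near.mul hc (hs a (Multiset.mem_cons_self a s))
      (ih fun x hx => hs x (Multiset.mem_cons_of_mem hx))

theorem Near.pow {c : K} (hc : c ∈ OT) {x : R} (hx : Near OT R c x) (m : ℕ) :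
    Near OT R c (x ^ m) := by
  induction m with
  | zero => rw [pow_zero]; exact Near.one
  | succ m ih => rw [pow_succ]; exact ih.mul hc hx

/-- being close to one can be tested in a larger field -/
theorem Near.of_map {S : Type} [Field S] [Algebra K S] (φ : R →ₐ[K] S) {c : K} (hc : c ≠ 0)
    {x : R} (hx : Near OT S c (φ x)) : Near OT R c x := by
  obtain ⟨a, ha, h⟩ := hx
  have hc0 : algebraMap K R c ≠ 0 := (_root_.map_ne_zero _).mpr hc
  refine ⟨(x - 1) / algebraMap K R c, ?_, by field_simp; ring⟩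
  refine Itg.of_map φ φ.injective ?_
  have h1 : φ ((x - 1) / algebraMap K R c) = a := by
    have hc1 : algebraMap K S c ≠ 0 := (_root_.map_ne_zero _).mpr hc
    rw [map_div₀, map_sub, map_one, AlgHom.commutes, h]
    field_simp
    ring
  rw [h1]
  exact ha

end field

/-- **The norm of an element close to one is close to one.** -/
theorem Near.norm {F L : Type} [Field F] [Field L] [Algebra K F] [Algebra K L] [Algebra F L]
    [IsScalarTower K F L] [FiniteDimensional F L] {c : K} (hc0 : c ≠ 0) (hc : c ∈ OT) {y : L}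
    (hy : Near OT L c y) : Near OT F c (Algebra.norm F y) := by
  have hint : IsIntegral F y := Algebra.IsIntegral.isIntegral y
  set Ω := AlgebraicClosure F with hΩ
  refine Near.of_map (IsScalarTower.toAlgHom K F Ω) hc0 ?_
  have hsp : ((minpoly F y).map (algebraMap F Ω)).Splits := IsAlgClosed.splits _
  have h1 := Algebra.norm_eq_prod_roots (K := F) (F := Ω) (x := y) hsp
  change Near OT Ω c (algebraMap F Ω (Algebra.norm F y))
  rw [h1]
  refine Near.pow hc (Near.prod hc _ fun r hr => ?_) _
  obtain ⟨a, ⟨p, hp, hpa⟩, hya⟩ := hy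
  have hcL : algebraMap K L c ≠ 0 := (_root_.map_ne_zero _).mpr hc0
  have hcF : algebraMap K F c ≠ 0 := (_root_.map_ne_zero _).mpr hc0
  have hcΩ : algebraMap K Ω c ≠ 0 := (_root_.map_ne_zero _).mpr hc0
  refine ⟨(r - 1) / algebraMap K Ω c, ⟨p, hp, ?_⟩, by
    rw [mul_div_assoc', mul_div_cancel_left₀ _ hcΩ]; ring⟩
  -- the polynomial which vanishes at `y`
  set G : F[X] := (p.map ((algebraMap K F).comp OT.subtype)).comp
    (C (algebraMap K F c)⁻¹ * (X - 1)) with hG
  have key : ∀ (S : Type) [Field S] [Algebra F S] [Algebra K S] [IsScalarTower K F S] (t : S),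
      aeval t G = eval₂ ((algebraMap K S).comp OT.subtype) ((t - 1) / algebraMap K S c) p := by
    intro S _ _ _ _ t
    rw [hG, aeval_comp, aeval_def, eval₂_map]
    congr 1
    · rw [← RingHom.comp_assoc, ← IsScalarTower.algebraMap_eq]
    · simp only [map_mul, map_sub, map_one, aeval_X, aeval_C, map_inv₀]
      rw [← IsScalarTower.algebraMap_apply, div_eq_mul_inv, mul_comm]
  have h2 : aeval y G = 0 := by
    rw [key L y, hya]
    have h3 : (1 + algebraMap K L c * a - 1) / algebraMap K L c = a := by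
      field_simp
      ring
    rw [h3]
    exact hpa
  have h3 : aeval r G = 0 := by
    obtain ⟨q, hq⟩ := minpoly.dvd F y h2
    have h4 : aeval r (minpoly F y) = 0 := (mem_aroots.mp hr).2
    rw [hq, map_mul, h4, zero_mul]
  rw [key Ω r] at h3
  exact h3

section abv

variable {D : Type} [DivisionRing D] [Algebra K D]

theorem abv_sum_le {S : Type} [Ring S] (μ : AbsoluteValue S ℝ)
    (hμ : ∀ x y, μ (x + y) ≤ max (μ x) (μ y)) {κ : Type} (s : Finset κ) (f : κ → S) {B : ℝ}
    (hB : 0 ≤ B) (h : ∀ i ∈ s, μ (f i) ≤ B) : μ (∑ i ∈ s, f i) ≤ B := by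
  classical
  induction s using Finset.induction_on with
  | empty => rw [Finset.sum_empty, map_zero]; exact hB
  | insert a s ha ih =>
    rw [Finset.sum_insert ha]
    exact (hμ _ _).trans (max_le (h a (Finset.mem_insert_self a s))
      (ih fun i hi => h i (Finset.mem_insert_of_mem hi)))

/-- an absolute value is at most one on the integral elements -/
theorem abv_itg (μ : AbsoluteValue D ℝ) (hμ : ∀ x y, μ (x + y) ≤ max (μ x) (μ y))
    (hO : ∀ c ∈ OT, μ (algebraMap K D c) ≤ 1) {a : D} (ha : Itg OT D a) : μ a ≤ 1 := by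
  obtain ⟨p, hp, h⟩ := ha
  by_contra hcon
  push Not at hcon
  rw [eval₂_eq_sum_range, Finset.sum_range_succ, hp.coeff_natDegree, map_one, one_mul] at h
  have h1 : a ^ p.natDegree = -∑ i ∈ Finset.range p.natDegree,
      ((algebraMap K D).comp OT.subtype) (p.coeff i) * a ^ i := by
    rw [eq_neg_iff_add_eq_zero, add_comm]
    exact h
  have h2 : μ a ^ p.natDegree ≤ μ a ^ (p.natDegree - 1) := by
    rw [← map_pow, h1, AbsoluteValue.map_neg]
    refine abv_sum_le μ hμ _ _ (pow_nonneg (μ.nonneg _) _) fun i hi => ?_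
    rw [map_mul, map_pow]
    have h3 : μ (((algebraMap K D).comp OT.subtype) (p.coeff i)) ≤ 1 :=
      hO _ (p.coeff i).2
    calc μ (((algebraMap K D).comp OT.subtype) (p.coeff i)) * μ a ^ i
        ≤ 1 * μ a ^ i := mul_le_mul_of_nonneg_right h3 (pow_nonneg (μ.nonneg _) _)
      _ = μ a ^ i := one_mul _
      _ ≤ μ a ^ (p.natDegree - 1) :=
          pow_le_pow_right₀ hcon.le (by have := Finset.mem_range.mp hi; omega)
  rcases Nat.eq_zero_or_pos p.natDegree with h0 | h0
  · rw [h0, Finset.range_zero, Finset.sum_empty, pow_zero, zero_add] at h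
    exact one_ne_zero h
  · exact absurd h2 (not_le.mpr (pow_lt_pow_right₀ hcon (by omega)))

theorem near_abv (μ : AbsoluteValue D ℝ) (hμ : ∀ x y, μ (x + y) ≤ max (μ x) (μ y))
    (hO : ∀ c ∈ OT, μ (algebraMap K D c) ≤ 1) {F : Type} [Field F] [Algebra K F]
    (φ : F →ₐ[K] D) {c : K} {x : F} (hx : Near OT F c x) :
    μ (φ x - 1) ≤ μ (algebraMap K D c) := by
  obtain ⟨a, ha, rfl⟩ := hx
  rw [map_add, map_one, add_sub_cancel_left, map_mul, AlgHom.commutes, map_mul]
  exact mul_le_of_le_one_right (μ.nonneg _) (abv_itg μ hμ hO (Itg.map φ ha))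

end abv

end Vale.Agent.P011.H699.Odd
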