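import Vale.Agent.P011.H699.Odd.TypB
import Vale.Agent.P011.H74.Odd.NuF

/-!
**The three inputs of the theorem on the commutators over function fields.**
-/

open Polynomial Module

set_option linter.unusedSectionVars false

namespace Vale.Agent.P011.H699.Odd.TypC

open Vale.Agent.P011.H738 Vale.Agent.P011.H271 Vale.Agent.P011.H271.S3 Vale.Agent.P011.H973.PF
open Vale.Agent.P011.H511.FF Vale.Agent.P011.H698 Vale.Agent.P011.H74.Odd

/-- **(a0)** Every element close to one is approximated by norms of elements close to one. -/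
def HOpen (K : Type) [Field K] (T : Set (Place K)) : Prop :=
  ∀ (C : Type) [Field C] [Algebra K C] [FiniteDimensional K C] [IsGalois K C] (c' : K),
    c' ≠ 0 → c' ∈ OT T → ∀ R : IntermediateField K C, ∃ d : K, d ≠ 0 ∧
      ∀ z : R, z ≠ 0 → Near (OT T) R d z → PC (OT T) C R c' z

/-- **(a1)** The same for the extensions which are totally split over a fixed field `N₀` at the
places above `T`, uniformly. -/
def HBot (K : Type) [Field K] (T : Set (Place K)) : Prop :=
  ∀ (N₀ : Type) [Field N₀] [Algebra K N₀] [FiniteDimensional K N₀] [IsGalois K N₀] (c' : K),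
    c' ≠ 0 → c' ∈ OT T → ∃ cB ∈ OT T, cB ≠ 0 ∧
    ∀ (C : Type) [Field C] [Algebra K C] [Algebra N₀ C] [IsScalarTower K N₀ C]
      [FiniteDimensional K C] [IsGalois K C] (P : K[X]), P.Separable →
      IsSplittingField N₀ C (P.map (algebraMap K N₀)) →
      (∀ V ∈ T, ∀ W : Place N₀, Ab W V →
        ((P.map (algebraMap K N₀)).map (algebraMap N₀ W.comp)).Splits) →
      ∀ w : K, w ≠ 0 → Near (OT T) K cB w → PC (OT T) C K c' w

/-- **(b)** The minimal polynomial of an element close to a separable element splits over the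
completions of the splitting field of the latter. -/
def Kras {k K D : Type} [Field k] [Field K] [DivisionRing D] [Algebra k K] [Algebra k D]
    [Algebra K D] {N : ℕ} (B : Basis (Fin N) k D) (n : ℕ) (T : Set (Place k)) : Prop :=
  ∀ t₀ : D, (minpoly K t₀).natDegree = n → (minpoly K t₀).Separable →
    ∀ (N₀ : Type) [Field N₀] [Algebra K N₀] [FiniteDimensional K N₀] [IsGalois K N₀],
      IsSplittingField K N₀ (minpoly K t₀) → ∃ δ : ℝ, 0 < δ ∧
      ∀ x : D, (∀ v ∈ T, Sm B v δ (x - t₀)) →
        (minpoly K x).natDegree = n ∧ (minpoly K x).Separable ∧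
        ∀ V ∈ abT K T, ∀ W : Place N₀, Ab W V →
          (((minpoly K x).map (algebraMap K N₀)).map (algebraMap N₀ W.comp)).Splits

end Vale.Agent.P011.H699.Odd.TypC
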