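import Vale.Agent.P011.H699.Odd.StepThree
import Vale.Agent.P011.H327.TowerZ

/-!
**The commutators of the unitary elements close to one: the towers and the two theorems.**
-/

open Module
open scoped commutatorElement

set_option linter.unusedSectionVars false

namespace Vale.Agent.P011.H699.Odd

variable {K D : Type} [Field K] [StarRing K] [DivisionRing D] [StarRing D] [Algebra K D]
  {n : ℕ} {N : D →* K} {ι : Type} {ν : ι → AbsoluteValue D ℝ}
  {E : Type} [CommGroup E] {ε : ℝ} {X : Set (Dˣ → E)} {Ω : Type} [Field Ω] [Algebra K Ω]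

open IntermediateField in
/-- The tower principle for the field `F` and the prime number `p`: there is a tower of steps of
degree `p` over a field of degree prime to `p` which ends above `F`. -/
def TowE (F : IntermediateField K Ω) (p : ℕ) (Z : IntermediateField K Ω → Prop)
    (Bd : ℕ → Prop) : Prop :=
  ∀ Q : ℕ → IntermediateField K Ω → Prop,
    (∀ R : IntermediateField K Ω, FiniteDimensional K R → Algebra.IsSeparable K R → F ≤ R → Z R →
      Q 0 R) →
    (∀ (j : ℕ) (R R' : IntermediateField K Ω) (h : R ≤ R'), FiniteDimensional K R →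
      FiniteDimensional K R' → Algebra.IsSeparable K R → Algebra.IsSeparable K R' → Z R →
      IsGalois R (extendScalars h) → finrank R (extendScalars h) = p → Q j R' → Q (j + 1) R) →
    ∃ (f : ℕ) (R : IntermediateField K Ω), Bd f ∧ FiniteDimensional K R ∧
      Algebra.IsSeparable K R ∧ ¬ p ∣ finrank K R ∧ Q f R

/-- The field of `h` has degree `n` and is the end of good towers. -/
def GoodEl (n : ℕ) (Ω : Type) [Field Ω] [Algebra K Ω] (Z : ℕ → IntermediateField K Ω → Prop)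
    (Bd : ℕ → ℕ → Prop) (h : Dˣ) : Prop :=
  ∃ (F : IntermediateField K Ω) (φ : F →ₐ[K] D), finrank K F = n ∧ FiniteDimensional K F ∧
    (∀ y, φ y ∈ Algebra.adjoin K {(h : D)}) ∧
    ∀ p : ℕ, p.Prime → p ∣ n → TowE F p (Z p) (Bd p)

/-- **The hypotheses on the arithmetic**: good elements, the nearness predicates, the steps and
the top of the tower. -/
structure Ar (n : ℕ) (N : D →* K) {ι : Type} (ν : ι → AbsoluteValue D ℝ) (ε : ℝ)
    (PK : K → Prop) (Ω : Type) [Field Ω] [Algebra K Ω]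
    (Z : ℕ → IntermediateField K Ω → Prop) (Bd : ℕ → ℕ → Prop)
    (P : ℕ → ℕ → ∀ R : IntermediateField K Ω, R → Prop) : Prop where
  good : ∀ hs : Finset Dˣ, (∀ h ∈ hs, h ∈ Ug D) → ∃ g : Dˣ, g ∈ Gg N ∧ Bl ν ε g ∧
    ∀ h ∈ hs, GoodEl n Ω Z Bd (h * g)
  near : ∀ w : K, w ≠ 0 → PK w → ∀ i, ν i (algebraMap K D w - 1) < ε
  bot : ∀ (p : ℕ), p.Prime → p ∣ n → ∀ (j : ℕ), Bd p j → ∀ (R : IntermediateField K Ω) (w : K),
    w ≠ 0 → PK w → P p j R (algebraMap K R w)
  step : ∀ (p : ℕ), p.Prime → p ∣ n → ∀ (j : ℕ) (R R' : IntermediateField K Ω) (h : R ≤ R'),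
    FiniteDimensional K R → FiniteDimensional K R' → Algebra.IsSeparable K R →
    Algebra.IsSeparable K R' → Z p R → IsGalois R (IntermediateField.extendScalars h) →
    finrank R (IntermediateField.extendScalars h) = p →
    StepH N ν PK R R' (P p (j + 1) R) (P p j R')
  top : ∀ (p : ℕ), p.Prime → p ∣ n → ∀ (F R : IntermediateField K Ω) (h : F ≤ R),
    FiniteDimensional K R → ∀ (φ : F →ₐ[K] D), finrank K F = n → ∀ x : R, x ≠ 0 → P p 0 R x →
    ∀ i, ν i (φ (letI := (IntermediateField.inclusion h).toRingHom.toAlgebra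
      Algebra.norm F x) - 1) < ε

theorem Qt.pow {u : Dˣ} {a : K} (hu : Qt N u a) (m : ℕ) : Qt N (u ^ m) (a ^ m) := by
  refine ⟨pow_ne_zero _ hu.1, ?_⟩
  rw [Units.val_pow_eq_pow_val, map_pow, star_pow, ← mul_pow, hu.2]

/-- The `n`-th power of a unitary element is central up to an element of reduced norm one. -/
theorem pow_split (hN : Rn n N) {u : Dˣ} (hu : u ∈ Ug D) :
    ∃ β : Dˣ, (β : D) = algebraMap K D (N (u : D)) ∧ u ^ n * β⁻¹ ∈ Gg N ∧
      ∀ v : Dˣ, Commute β v := by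
  have h1 : N (u : D) * star (N (u : D)) = 1 := by
    rw [← hN.star, ← map_mul, mem_Ug.mp hu, map_one]
  have h0 : N (u : D) ≠ 0 := left_ne_zero_of_mul_eq_one h1
  have hβ0 : algebraMap K D (N (u : D)) ≠ 0 := (map_ne_zero _).mpr h0
  refine ⟨Units.mk0 _ hβ0, rfl, ⟨mul_mem (pow_mem hu n) (inv_mem ?_), ?_⟩, fun v => ?_⟩
  · rw [mem_Ug, Units.val_mk0, hN.star_alg, ← map_mul, h1, map_one]
  · have h3 : N ((Units.mk0 _ hβ0 : Dˣ) : D) = N (u : D) ^ n := by
      rw [Units.val_mk0, hN.alg]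
    have h4 : N (((Units.mk0 _ hβ0 : Dˣ)⁻¹ : Dˣ) : D) * N ((Units.mk0 _ hβ0 : Dˣ) : D) = 1 := by
      rw [← map_mul, Units.inv_mul, map_one]
    rw [Units.val_mul, map_mul, Units.val_pow_eq_pow_val, map_pow, ← h3, mul_comm]
    exact h4
  · refine Units.ext ?_
    rw [Units.val_mul, Units.val_mul, Units.val_mk0]
    exact (Algebra.commutes _ _)

/-- the invariance under an element of the group `U`, for all characters -/
def StS (X : Set (Dˣ → E)) (hst : ∀ χ ∈ X, ∀ u ∈ Ug D, (fun h => χ (u * h * u⁻¹)) ∈ X)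
    (h : Dˣ) : Subgroup Dˣ where
  carrier := {u | u ∈ Ug D ∧ ∀ χ ∈ X, χ (u * h * u⁻¹) = χ h}
  mul_mem' := by
    rintro a b ⟨ha, ha'⟩ ⟨hb, hb'⟩
    refine ⟨mul_mem ha hb, fun χ hχ => ?_⟩
    have h1 := hb' _ (hst χ hχ a ha)
    have h2 : a * b * h * (a * b)⁻¹ = a * (b * h * b⁻¹) * a⁻¹ := by group
    rw [h2]
    exact h1.trans (ha' χ hχ)
  one_mem' := ⟨one_mem _, fun χ _ => by rw [one_mul, inv_one, mul_one]⟩
  inv_mem' := by
    rintro a ⟨ha, ha'⟩
    refine ⟨inv_mem ha, fun χ hχ => ?_⟩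
    have h1 := ha' _ (hst χ hχ a⁻¹ (inv_mem ha))
    have h2 : a⁻¹ * (a * h * a⁻¹) * a⁻¹⁻¹ = h := by group
    simp only [h2] at h1
    exact h1.symm

section

variable {PK : K → Prop} {Z : ℕ → IntermediateField K Ω → Prop} {Bd : ℕ → ℕ → Prop}
  {P : ℕ → ℕ → ∀ R : IntermediateField K Ω, R → Prop}

theorem norm_two {F R : Type} [Field F] [Field R] [Algebra K F] [Algebra K R] [Algebra F R]
    [IsScalarTower K F R] [FiniteDimensional K F] [FiniteDimensional K R] (x : R) :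
    Algebra.norm K (Algebra.norm F x) = Algebra.norm K x ∧ (x ≠ 0 → Algebra.norm F x ≠ 0) := by
  have : FiniteDimensional F R := FiniteDimensional.right K F R
  exact ⟨Algebra.norm_norm, fun hx => Algebra.norm_ne_zero_iff.mpr hx⟩

/-- the norms from a field containing the field of `h` -/
theorem exists_norm (hN : Rn n N) {h : Dˣ} {F R : IntermediateField K Ω} (hFR : F ≤ R)
    (φ : F →ₐ[K] D) (hF : finrank K F = n) (hFf : FiniteDimensional K F)
    (hRf : FiniteDimensional K R)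
    (hφ : ∀ y, φ y ∈ Algebra.adjoin K {(h : D)}) (x : R) (hx : x ≠ 0) :
    φ (letI := (IntermediateField.inclusion hFR).toRingHom.toAlgebra
      Algebra.norm F x) ≠ 0 ∧
    φ (letI := (IntermediateField.inclusion hFR).toRingHom.toAlgebra
      Algebra.norm F x) ∈ Algebra.adjoin K {(h : D)} ∧
    N (φ (letI := (IntermediateField.inclusion hFR).toRingHom.toAlgebra
      Algebra.norm F x)) = Algebra.norm K x := by
  let i1 : Algebra F R := (IntermediateField.inclusion hFR).toRingHom.toAlgebra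
  have i2 : IsScalarTower K F R := IsScalarTower.of_algebraMap_eq fun _ => rfl
  have h1 := norm_two (K := K) (F := F) (R := R) x
  refine ⟨?_, hφ _, ?_⟩
  · rw [map_ne_zero]
    exact h1.2 hx
  · rw [hN.fld F φ _ hF]
    exact h1.1

/-- **The invariance for a good element.** -/
theorem inv_good (hN : Rn n N) (hν : Fa ν) (hε0 : 0 < ε) (hε : ε ≤ 1)
    (hX : Fam N ν ε X) (hA : Ar n N ν ε PK Ω Z Bd P) {h : Dˣ} (hh : h ∈ Gg N) (hhb : Bl ν ε h)
    (hg : GoodEl n Ω Z Bd h) {u : Dˣ} (hu : u ∈ Ug D) {w : K} (hw : PK w) (huw : Qt N u w) :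
    ∀ χ ∈ X, χ (u * h * u⁻¹) = χ h := by
  obtain ⟨F, φ, hF, hFf, hφ, htow⟩ := hg
  have key : u ∈ StS X hX.stab h := by
    refine H327.Tower.mem_of_pow_mem _ u (n := n) ?_ fun p hp hpn => ?_
    · obtain ⟨β, -, hβg, hβc⟩ := pow_split hN hu
      refine ⟨pow_mem hu n, fun χ hχ => ?_⟩
      have h1 : u ^ n * h * (u ^ n)⁻¹ = (u ^ n * β⁻¹) * h * (u ^ n * β⁻¹)⁻¹ := by
        have h2 : β⁻¹ * h * β = h := by
          rw [(hβc h).inv_left.eq, inv_mul_cancel_right]
        calc u ^ n * h * (u ^ n)⁻¹ = u ^ n * (β⁻¹ * h * β) * (u ^ n)⁻¹ := by rw [h2]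
          _ = _ := by group
      rw [h1]
      exact hX.inv χ hχ _ _ hβg hh hhb
    · obtain ⟨f, R, hBd, hRf, -, hpR, hQ⟩ := htow p hp hpn
        (fun j R => Cl1 N X h R (P p j R))
        (fun R hRf hRs hFR hZ => cl1_base hν hN hX hh hhb fun x hx =>
          ⟨_, exists_norm hN hFR φ hF hFf hRf hφ x hx⟩)
        (fun j R R' hRR' hRf hRf' hRs hRs' hZ hG hd hcl =>
          cl1_step hN hν hε0 hε hX (hA.step p hp hpn j R R' hRR' hRf hRf' hRs hRs' hZ hG hd)
            hh hhb hcl)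
      refine ⟨finrank K R, hpR, pow_mem hu _, fun χ hχ => ?_⟩
      refine hQ χ hχ (algebraMap K R w) ((map_ne_zero _).mpr huw.1)
        (hA.bot p hp hpn f hBd R w huw.1 hw) _ (pow_mem hu _) ?_
      rw [Algebra.norm_algebraMap]
      exact huw.pow _
  exact key.2

/-- **(E1)** The characters are invariant under the unitary elements close to one. -/
theorem inv1 (hN : Rn n N) (hν : Fa ν) (hε0 : 0 < ε) (hε : ε ≤ 1)
    (hX : Fam N ν ε X) (hA : Ar n N ν ε PK Ω Z Bd P) : Inv1 N ν ε X PK := by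
  classical
  intro χ hχ u w hu hw huw h hh hhb
  obtain ⟨g, hg, hgb, hgood⟩ := hA.good {1, h} (by
    intro a ha
    rcases Finset.mem_insert.mp ha with rfl | ha
    · exact one_mem _
    · rw [Finset.mem_singleton.mp ha]
      exact hh.1)
  have hg1 := hgood 1 (Finset.mem_insert_self _ _)
  have hg2 := hgood h (Finset.mem_insert_of_mem (Finset.mem_singleton_self _))
  rw [one_mul] at hg1
  have h1 := inv_good hN hν hε0 hε hX hA hg hgb hg1 hu hw huw χ hχ
  have h2 := inv_good hN hν hε0 hε hX hA (mul_mem hh hg) (hhb.mul hε hν hgb) hg2 hu hw huw χ hχ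
  have h3 : u * (h * g) * u⁻¹ = (u * h * u⁻¹) * (u * g * u⁻¹) := by group
  rw [h3, hX.mul χ hχ _ _ (Gg_conj hh hu) (hhb.conj u) (Gg_conj hg hu) (hgb.conj u), h1,
    hX.mul χ hχ _ _ hh hhb hg hgb] at h2
  exact mul_right_cancel h2

/-- the elements with trivial commutators with `u₁` -/
def CoS (X : Set (Dˣ → E)) (hν : Fa ν) (hε : ε ≤ 1) (hX : Fam N ν ε X) {u₁ : Dˣ}
    (hu₁ : u₁ ∈ Ug D) (hu₁b : Bl ν ε u₁) : Subgroup Dˣ where
  carrier := {u | u ∈ Ug D ∧ ∀ χ ∈ X, χ ⁅u₁, u⁆ = 1}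
  mul_mem' := by
    rintro a b ⟨ha, ha'⟩ ⟨hb, hb'⟩
    refine ⟨mul_mem ha hb, fun χ hχ => ?_⟩
    rw [comm_mul hν hε hX hχ hu₁ hu₁b ha hb, ha' χ hχ, one_mul]
    exact hb' _ (hX.stab χ hχ a ha)
  one_mem' := by
    refine ⟨one_mem _, fun χ hχ => ?_⟩
    have h1 := comm_mul hν hε hX hχ hu₁ hu₁b (one_mem (Ug D)) (one_mem (Ug D))
    rw [one_mul, one_mul, inv_one, mul_one] at h1
    exact left_eq_mul.mp h1
  inv_mem' := by
    rintro a ⟨ha, ha'⟩
    refine ⟨inv_mem ha, fun χ hχ => ?_⟩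
    have h0 : χ ⁅u₁, (1 : Dˣ)⁆ = 1 := by
      have h1 := comm_mul hν hε hX hχ hu₁ hu₁b (one_mem (Ug D)) (one_mem (Ug D))
      rw [one_mul, one_mul, inv_one, mul_one] at h1
      exact left_eq_mul.mp h1
    have h1 := comm_mul hν hε hX hχ hu₁ hu₁b (inv_mem ha) ha
    rw [inv_mul_cancel, h0] at h1
    have h2 := ha' _ (hX.stab χ hχ a⁻¹ (inv_mem ha))
    rw [h2, mul_one] at h1
    exact h1.symm

/-- **(E3), for a good element.** -/
theorem comm_good (hN : Rn n N) (hν : Fa ν) (hε0 : 0 < ε) (hε : ε ≤ 1)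
    (hX : Fam N ν ε X) (hA : Ar n N ν ε PK Ω Z Bd P) {u₁ u₂ : Dˣ} (hu₁ : u₁ ∈ Ug D)
    (hu₁b : Bl ν ε u₁) {w₁ : K} (hw₁ : PK w₁) (huw₁ : Qt N u₁ w₁) (hg : GoodEl n Ω Z Bd u₁)
    (hu₂ : u₂ ∈ Ug D) (hu₂b : Bl ν ε u₂) {w₂ : K} (hw₂ : PK w₂) (huw₂ : Qt N u₂ w₂) :
    ∀ χ ∈ X, χ ⁅u₁, u₂⁆ = 1 := by
  have hI : Inv1 N ν ε X PK := inv1 hN hν hε0 hε hX hA
  obtain ⟨F, φ, hF, hFf, hφ, htow⟩ := hg
  have key : u₂ ∈ CoS X hν hε hX hu₁ hu₁b := by
    refine H327.Tower.mem_of_pow_mem _ u₂ (n := n) ?_ fun p hp hpn => ?_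
    · obtain ⟨β, hβ, hβg, hβc⟩ := pow_split hN hu₂
      refine ⟨pow_mem hu₂ n, fun χ hχ => ?_⟩
      -- `β` is close to one
      have hβb : Bl ν ε β := by
        have h1 : (w₂ : K) ≠ 0 := huw₂.1
        have h2 : star w₂ ≠ 0 := star_ne_zero.mpr h1
        have ha0 : algebraMap K D w₂ ≠ 0 := (map_ne_zero _).mpr h1
        set a : Dˣ := Units.mk0 _ ha0 with ha
        have hb0 : algebraMap K D (star w₂) ≠ 0 := (map_ne_zero _).mpr h2
        set b : Dˣ := Units.mk0 _ hb0 with hb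
        have hab : β = a * b⁻¹ := by
          refine Units.ext ?_
          rw [hβ, Units.val_mul, ha, Units.val_mk0, hb, Units.val_inv_eq_inv_val,
            Units.val_mk0, ← map_inv₀, ← map_mul, huw₂.unit]
        have han : Bl ν ε a := fun i => hA.near w₂ h1 hw₂ i
        have hbn : Bl ν ε b := fun i => by
          obtain ⟨j, hj⟩ := hν.star i
          have h3 := hA.near w₂ h1 hw₂ j
          rw [hj, star_sub, star_one, hN.star_alg] at h3
          exact h3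
        rw [hab]
        exact han.mul hε hν (hbn.inv hε hν)
      have hgb : Bl ν ε (u₂ ^ n * β⁻¹) := by
        refine Bl.mul hε hν ?_ (hβb.inv hε hν)
        clear hβg hβ
        induction n with
        | zero =>
          intro i
          rw [pow_zero, Units.val_one, sub_self, map_zero]
          exact hε0
        | succ m ih =>
          rw [pow_succ]
          exact Bl.mul hε hν (by
            clear * - hu₂b hε hν hε0
            induction m with
            | zero =>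
              intro i
              rw [pow_zero, Units.val_one, sub_self, map_zero]
              exact hε0
            | succ m ih => rw [pow_succ]; exact Bl.mul hε hν ih hu₂b) hu₂b
      have h1 : ⁅u₁, u₂ ^ n⁆ = ⁅u₁, u₂ ^ n * β⁻¹⁆ := by
        have h2 : β⁻¹ * u₁⁻¹ * β = u₁⁻¹ := by
          rw [(hβc u₁).inv_inv.eq, inv_mul_cancel_right]
        have h3 : ⁅u₁, u₂ ^ n * β⁻¹⁆ = u₁ * u₂ ^ n * (β⁻¹ * u₁⁻¹ * β) * (u₂ ^ n)⁻¹ := by
          rw [commutatorElement_def]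
          group
        rw [h3, h2, commutatorElement_def]
      rw [h1]
      exact comm_inv1 hν hε0 hε hX hI hχ hu₁ hw₁ huw₁ hβg hgb
    · obtain ⟨f, R, hBd, hRf, -, hpR, hQ⟩ := htow p hp hpn
        (fun j R => Cl3 N ν ε X u₁ R (P p j R))
        (fun R hRf hRs hFR hZ => cl3_base hN hν hε0 hε hX hI hu₁ hw₁ huw₁ fun x hx hPx =>
          ⟨_, (exists_norm hN hFR φ hF hFf hRf hφ x hx).1,
            (exists_norm hN hFR φ hF hFf hRf hφ x hx).2.1,
            (exists_norm hN hFR φ hF hFf hRf hφ x hx).2.2,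
            hA.top p hp hpn F R hFR hRf φ hF x hx hPx⟩)
        (fun j R R' hRR' hRf hRf' hRs hRs' hZ hG hd hcl =>
          cl3_step hN hν hε0 hε hX hI
            (hA.step p hp hpn j R R' hRR' hRf hRf' hRs hRs' hZ hG hd) hu₁ hu₁b hw₁ huw₁ hcl)
      refine ⟨finrank K R, hpR, pow_mem hu₂ _, fun χ hχ => ?_⟩
      refine hQ χ hχ (algebraMap K R w₂) ((map_ne_zero _).mpr huw₂.1)
        (hA.bot p hp hpn f hBd R w₂ huw₂.1 hw₂) _ (pow_mem hu₂ _) ?_ ?_
      · generalize finrank K R = m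
        induction m with
        | zero =>
          intro i
          rw [pow_zero, Units.val_one, sub_self, map_zero]
          exact hε0
        | succ m ih => rw [pow_succ]; exact Bl.mul hε hν ih hu₂b
      · rw [Algebra.norm_algebraMap]
        exact huw₂.pow _
  exact key.2

/-- **(E3)** The characters are trivial on the commutators of the unitary elements close to
one. -/
theorem comm3 (hN : Rn n N) (hν : Fa ν) (hε0 : 0 < ε) (hε : ε ≤ 1)
    (hX : Fam N ν ε X) (hA : Ar n N ν ε PK Ω Z Bd P) {u₁ u₂ : Dˣ} (hu₁ : u₁ ∈ Ug D)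
    (hu₁b : Bl ν ε u₁) {w₁ : K} (hw₁ : PK w₁) (huw₁ : Qt N u₁ w₁)
    (hu₂ : u₂ ∈ Ug D) (hu₂b : Bl ν ε u₂) {w₂ : K} (hw₂ : PK w₂) (huw₂ : Qt N u₂ w₂) :
    ∀ χ ∈ X, χ ⁅u₁, u₂⁆ = 1 := by
  intro χ hχ
  have hI : Inv1 N ν ε X PK := inv1 hN hν hε0 hε hX hA
  obtain ⟨g, hg, hgb, hgood⟩ := hA.good {u₁} (by
    intro a ha
    rw [Finset.mem_singleton.mp ha]
    exact hu₁)
  have hg1 := hgood u₁ (Finset.mem_singleton_self _)
  have hvU : u₁ * g ∈ Ug D := mul_mem hu₁ hg.1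
  have hvb : Bl ν ε (u₁ * g) := hu₁b.mul hε hν hgb
  have hvw : Qt N (u₁ * g) w₁ := by
    refine ⟨huw₁.1, ?_⟩
    rw [Units.val_mul, map_mul, hg.2, mul_one]
    exact huw₁.2
  have h1 := comm_good hN hν hε0 hε hX hA hvU hvb hw₁ hvw hg1 hu₂ hu₂b hw₂ huw₂ χ hχ
  have h2 : ⁅u₁ * g, u₂⁆ = (u₁ * ⁅g, u₂⁆ * u₁⁻¹) * ⁅u₁, u₂⁆ := by
    simp only [commutatorElement_def]
    group
  have h3 : χ (u₁ * ⁅g, u₂⁆ * u₁⁻¹) = 1 := by
    rw [hI χ hχ u₁ w₁ hu₁ hw₁ huw₁ _ (Gg_comm hg.1 hu₂) (hgb.comm hε hν),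
      ← commutatorElement_inv, hX.map_inv hν hε0 hε hχ (Gg_comm hu₂ hg.1) (hu₂b.comm hε hν),
      comm_inv1 hν hε0 hε hX hI hχ hu₂ hw₂ huw₂ hg hgb, inv_one]
  rw [h2, hX.mul χ hχ _ _ (Gg_conj (Gg_comm hg.1 hu₂) hu₁) ((hgb.comm hε hν).conj _)
    (Gg_comm hu₁ hu₂) (hu₁b.comm hε hν), h3, one_mul] at h1
  exact h1

end

end Vale.Agent.P011.H699.Odd
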