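import Vale.Agent.P011.H699.Odd.NearL
import Vale.Agent.P011.H699.Odd.Tower

/-!
**The arithmetic step from the two-field norm lemma and the split elements.**
-/

open Module Polynomial
open scoped commutatorElement

set_option linter.unusedSectionVars false

namespace Vale.Agent.P011.H699.Odd

variable {K D : Type} [Field K] [StarRing K] [DivisionRing D] [StarRing D] [Algebra K D]
  {n : ℕ} {N : D →* K} {ι : Type} {ν : ι → AbsoluteValue D ℝ} {OT : Subring K}

/-- The field of an element of the division algebra, embedded in a field which contains a root of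
its minimal polynomial. -/
theorem exists_field {q : D} (hq : IsIntegral K q) {M : Type} [Field M] [Algebra K M] (θ : M)
    (hθ : aeval θ (minpoly K q) = 0) : ∃ (F : IntermediateField K M) (φ : F →ₐ[K] D),
      finrank K F = (minpoly K q).natDegree ∧ FiniteDimensional K F ∧
      (∀ y, φ y ∈ Algebra.adjoin K {q}) ∧ F = IntermediateField.adjoin K {θ} := by
  have hm : minpoly K q = minpoly K θ :=
    minpoly.eq_of_irreducible_of_monic (minpoly.irreducible hq) hθ (minpoly.monic hq)
  have hint : IsIntegral K θ := ⟨minpoly K q, minpoly.monic hq, hθ⟩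
  let pb := IntermediateField.adjoin.powerBasis hint
  have hgen : pb.gen = IntermediateField.AdjoinSimple.gen K θ := rfl
  have h1 : minpoly K pb.gen = minpoly K q := by
    rw [hgen, IntermediateField.minpoly_gen, hm]
  refine ⟨IntermediateField.adjoin K {θ}, pb.lift q (by rw [h1, minpoly.aeval]), ?_, ?_, ?_, rfl⟩
  · rw [IntermediateField.adjoin.finrank hint, hm]
  · exact IntermediateField.adjoin.finiteDimensional hint
  · intro y
    obtain ⟨g, rfl⟩ := pb.exists_eq_aeval' y
    rw [← aeval_algHom_apply, PowerBasis.lift_gen]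
    exact aeval_mem_adjoin_singleton K q

/-- **The arithmetic step.** -/
theorem stepH_of_TN {J : Type} {Sp : J → K[X] → Prop} (hN : Rn n N) (hν : Fa ν)
    (hDf : ∀ q : D, IsIntegral K q)
    (hO : ∀ i, ∀ c ∈ OT, ν i (algebraMap K D c) ≤ 1)
    (hsm : ∀ ε : ℝ, 0 < ε → ∃ c ∈ OT, c ≠ 0 ∧ ∀ i, ν i (algebraMap K D c) < ε)
    (hSp1 : ∀ j, Sp j 1) (hSpm : ∀ j P Q, Sp j P → Sp j Q → Sp j (P * Q))
    (hSpl : SplE n N ν Sp) {cK : K} (hcK0 : cK ≠ 0) (hcK : cK ∈ OT)
    {R R' : Type} [Field R] [Algebra K R] [Field R'] [Algebra K R'] [Algebra R R']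
    [IsScalarTower K R R'] [FiniteDimensional K R] [FiniteDimensional K R']
    {c c' : K} (hTN : TN OT Sp R R' c c') :
    StepH N ν (Near OT K cK) R R' (Near OT R c) (Near OT R' c') := by
  classical
  intro x hx hPx hs hsU ε hε
  obtain ⟨j, hj⟩ := hTN x hx hPx
  obtain ⟨g, hg, hgb, hgs⟩ := hSpl j hs hsU ε hε
  obtain ⟨d, hdO, hd0, hdε⟩ := hsm ε hε
  -- the compositum
  set P : K[X] := ∏ h ∈ hs, minpoly K ((h * g : Dˣ) : D) with hP
  have hSpP : Sp j P := by
    rw [hP]
    refine Finset.prod_induction _ (Sp j) (fun a b => hSpm j a b) (hSp1 j) fun h hh => (hgs h hh).2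
  let M := (P.map (algebraMap K R)).SplittingField
  obtain ⟨x₁, y₁, hx₁, hy₁, hxy, hnx, hny⟩ := hj M P hSpP
    (Polynomial.IsSplittingField.splittingField _) (cK * d) (mul_ne_zero hcK0 hd0)
  refine ⟨g, hg, hgb, x₁, hx₁, hnx, fun h hh => ?_⟩
  have hP0 : P ≠ 0 := by
    rw [hP]
    exact Finset.prod_ne_zero_iff.mpr fun a _ => minpoly.ne_zero (hDf _)
  -- a root of the minimal polynomial
  obtain ⟨θ, hθ⟩ : ∃ θ : M, aeval θ (minpoly K ((h * g : Dˣ) : D)) = 0 := by
    have h1 : (P.map (algebraMap K M)).Splits := by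
      have h2 := (Polynomial.IsSplittingField.splits M (P.map (algebraMap K R)))
      rwa [Polynomial.map_map, ← IsScalarTower.algebraMap_eq] at h2
    have h3 : minpoly K ((h * g : Dˣ) : D) ∣ P := Finset.dvd_prod_of_mem _ hh
    have h4 : ((minpoly K ((h * g : Dˣ) : D)).map (algebraMap K M)).Splits :=
      Polynomial.Splits.of_dvd h1 ((Polynomial.map_ne_zero_iff (algebraMap K M).injective).mpr hP0)
        (Polynomial.map_dvd _ h3)
    obtain ⟨θ, hθ⟩ := h4.exists_eval_eq_zero (by
      rw [Polynomial.degree_map]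
      exact (minpoly.degree_pos (hDf _)).ne')
    exact ⟨θ, by rwa [Polynomial.eval_map_algebraMap] at hθ⟩
  obtain ⟨F, φ, hF, hFf, hφ, -⟩ := exists_field (hDf ((h * g : Dˣ) : D)) θ hθ
  have hFn : finrank K F = n := hF.trans (hgs h hh).1
  have : FiniteDimensional K M := FiniteDimensional.trans K R M
  have : FiniteDimensional F M := FiniteDimensional.right K F M
  have hcd : cK * d ∈ OT := mul_mem hcK hdO
  have hcd0 : cK * d ≠ 0 := mul_ne_zero hcK0 hd0
  have hny' : Near OT F (cK * d) (Algebra.norm F y₁) := hny.norm hcd0 hcd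
  refine ⟨φ (Algebra.norm F y₁), ?_, hφ _, ?_, ?_, ?_⟩
  · rw [_root_.map_ne_zero]
    exact Algebra.norm_ne_zero_iff.mpr hy₁
  · rw [hN.fld F φ _ hFn, Algebra.norm_norm, hxy, map_mul, Algebra.norm_norm, Algebra.norm_norm,
      mul_comm]
  · rw [hN.fld F φ _ hFn, Algebra.norm_norm]
    have h1 : Near OT K (cK * d) (Algebra.norm K y₁) := hny.norm hcd0 hcd
    exact h1.mono hdO
  · intro i
    refine (near_abv (ν i) (hν.ult i) (hO i) φ hny').trans_lt ?_
    rw [map_mul, map_mul]
    exact (mul_le_of_le_one_left ((ν i).nonneg _) (hO i cK hcK)).trans_lt (hdε i)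

end Vale.Agent.P011.H699.Odd
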