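import Vale.Agent.P011.H699.Odd.TypA
import Vale.Agent.P011.H699.Odd.OfTN

/-!
**The commutators of the unitary elements close to one: fields of a fixed type.**

`C` is a finite Galois extension of `K`.  The elements of an intermediate field `R` in question
are those which are approximated by norms from `C` of elements close to one: no uniform radius
in the two-field norm lemma is needed.
-/

open Module Polynomial
open scoped commutatorElement

set_option linter.unusedSectionVars false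

namespace Vale.Agent.P011.H699.Odd

variable {K D : Type} [Field K] [StarRing K] [DivisionRing D] [StarRing D] [Algebra K D]
  {n : ℕ} {N : D →* K} {ι : Type} {ν : ι → AbsoluteValue D ℝ} {OT : Subring K}
  {ε : ℝ} {PK PB : K → Prop}

/-- `x` is approximated by norms from `C` of elements close to one. -/
def PC (OT : Subring K) (C R : Type) [Field C] [Algebra K C] [Field R] [Algebra K R]
    [Algebra R C] (c' : K) (x : R) : Prop :=
  ∀ d : K, d ≠ 0 → ∃ (y : C) (z : R), y ≠ 0 ∧ z ≠ 0 ∧ Near OT C c' y ∧ Near OT R d z ∧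
    x = Algebra.norm R y * z

section

variable {C : Type} [Field C] [Algebra K C] [FiniteDimensional K C]

theorem PC.norm_mul {R : Type} [Field R] [Algebra K R] [Algebra R C] [IsScalarTower K R C]
    {c' : K} (hc' : c' ∈ OT) {y : C} (hy : y ≠ 0) (hny : Near OT C c' y) {z : R}
    (hz : PC OT C R c' z) : PC OT C R c' (Algebra.norm R y * z) := by
  intro d hd
  obtain ⟨y₁, z₁, hy₁, hz₁, hny₁, hnz₁, rfl⟩ := hz d hd
  refine ⟨y * y₁, z₁, mul_ne_zero hy hy₁, hz₁, hny.mul hc' hny₁, hnz₁, ?_⟩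
  rw [map_mul]
  ring

/-- **The step.** -/
theorem stepH_pc {R R' : Type} [Field R] [Algebra K R] [Field R'] [Algebra K R']
    [Algebra R C] [Algebra R' C] [IsScalarTower K R C] [IsScalarTower K R' C]
    [FiniteDimensional K R] [FiniteDimensional K R']
    {c' c₁ d₁ : K} (hc' : c' ∈ OT) (hc₁ : c₁ ≠ 0)
    (hst : StepH N ν PK R R' (Near OT R c₁) (Near OT R' d₁))
    (hopen : ∀ z : R', z ≠ 0 → Near OT R' d₁ z → PC OT C R' c' z) :
    StepH N ν PK R R' (PC OT C R c') (PC OT C R' c') := by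
  have hRC : FiniteDimensional R C := FiniteDimensional.right K R C
  have hRC' : FiniteDimensional R' C := FiniteDimensional.right K R' C
  intro x hx hPx hs hsU ε' hε'
  obtain ⟨y, z, hy, hz, hny, hnz, rfl⟩ := hPx c₁ hc₁
  obtain ⟨g, hg, hgb, z₁, hz₁, hnz₁, H⟩ := hst z hz hnz hs hsU ε' hε'
  refine ⟨g, hg, hgb, Algebra.norm R' y * z₁,
    mul_ne_zero (Algebra.norm_ne_zero_iff.mpr hy) hz₁,
    (hopen z₁ hz₁ hnz₁).norm_mul hc' hy hny, fun h hh => ?_⟩
  obtain ⟨a, h0, hmem, hNa, hPK, hsm⟩ := H h hh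
  refine ⟨a, h0, hmem, ?_, hPK, hsm⟩
  rw [map_mul, map_mul, Algebra.norm_norm, Algebra.norm_norm, ← hNa]
  ring

/-- **The bottom.** -/
theorem bot_pc {R : Type} [Field R] [Algebra K R] [Algebra R C] [IsScalarTower K R C]
    [FiniteDimensional K R] {c' : K} (hc' : c' ∈ OT) {d : K} (hd : d ≠ 0)
    (hopen : ∀ z : R, z ≠ 0 → Near OT R d z → PC OT C R c' z) {w : K}
    (hw0 : w ≠ 0) (hw : PC OT C K c' w) : ∃ x : R, x ≠ 0 ∧ PC OT C R c' x ∧
      Algebra.norm K x = w ^ finrank K R := by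
  have hRC : FiniteDimensional R C := FiniteDimensional.right K R C
  obtain ⟨y, z, hy, hz, hny, hnz, rfl⟩ := hw d hd
  set m := finrank K R with hm
  refine ⟨Algebra.norm R (y ^ m) * algebraMap K R z,
    mul_ne_zero (Algebra.norm_ne_zero_iff.mpr (pow_ne_zero _ hy))
      ((_root_.map_ne_zero _).mpr hz),
    (hopen _ ((_root_.map_ne_zero _).mpr hz) (hnz.map (Algebra.ofId K R))).norm_mul hc'
      (pow_ne_zero _ hy) (hny.pow hc' m), ?_⟩
  rw [map_mul, Algebra.norm_norm, Algebra.norm_algebraMap, map_pow, mul_pow]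

/-- **The top.** -/
theorem top_pc (hν : Fa ν) (hO : ∀ i, ∀ c ∈ OT, ν i (algebraMap K D c) ≤ 1)
    {c' : K} (hc'0 : c' ≠ 0) (hc' : c' ∈ OT) (hc'ε : ∀ i, ν i (algebraMap K D c') < ε)
    (F R : IntermediateField K C) (h : F ≤ R) (φ : F →ₐ[K] D) (x : R)
    (hPx : PC OT C R c' x) (i : ι) :
    ν i (φ (letI := (IntermediateField.inclusion h).toRingHom.toAlgebra
      Algebra.norm F x) - 1) < ε := by
  let i1 : Algebra F R := (IntermediateField.inclusion h).toRingHom.toAlgebra
  have i2 : IsScalarTower K F R := IsScalarTower.of_algebraMap_eq fun _ => rfl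
  have i3 : FiniteDimensional F R := FiniteDimensional.right K F R
  obtain ⟨y, z, hy, hz, hny, hnz, rfl⟩ := hPx c' hc'0
  have h1 : Near OT R c' (Algebra.norm R y * z) := (hny.norm hc'0 hc').mul hc' hnz
  exact (near_abv (ν i) (hν.ult i) (hO i) φ (h1.norm hc'0 hc')).trans_lt (hc'ε i)

/-- **The elements with a splitting field of the given type are good.** -/
theorem goodC_of {J : Type} {Sp : J → K[X] → Prop} (hN : Rn n N) (hν : Fa ν)
    (hDf : ∀ q : D, IsIntegral K q)
    (hO : ∀ i, ∀ c ∈ OT, ν i (algebraMap K D c) ≤ 1)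
    (hsm : ∀ ε : ℝ, 0 < ε → ∃ c ∈ OT, c ≠ 0 ∧ ∀ i, ν i (algebraMap K D c) < ε)
    (hSp1 : ∀ j, Sp j 1) (hSpm : ∀ j P Q, Sp j P → Sp j Q → Sp j (P * Q))
    (hSpl : SplE n N ν Sp) {cK : K} (hcK0 : cK ≠ 0) (hcK : cK ∈ OT)
    {c' : K} (hc'0 : c' ≠ 0) (hc' : c' ∈ OT) (hc'ε : ∀ i, ν i (algebraMap K D c') < ε)
    [IsGalois K C] {h : Dˣ} (hdeg : (minpoly K (h : D)).natDegree = n)
    (hC : ((minpoly K (h : D)).map (algebraMap K C)).Splits)
    (hopen : ∀ R : IntermediateField K C, ∃ d : K, d ≠ 0 ∧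
      ∀ z : R, z ≠ 0 → Near OT R d z → PC OT C R c' z)
    (hbot : ∀ w : K, w ≠ 0 → PB w → PC OT C K c' w)
    (hTN : ∀ p : ℕ, p.Prime → p ∣ n → ∀ (R R' : IntermediateField K C) (h : R ≤ R'),
      IsGalois R (IntermediateField.extendScalars h) →
      finrank R (IntermediateField.extendScalars h) = p → ∀ c : K, c ≠ 0 →
      ∃ c₁ : K, c₁ ≠ 0 ∧
        letI := (IntermediateField.inclusion h).toRingHom.toAlgebra
        TN OT Sp R R' c₁ c) :
    GoodC n N ν (Near OT K cK) PB ε C h := by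
  have hint := hDf (h : D)
  have hmp0 : (minpoly K (h : D)).map (algebraMap K C) ≠ 0 :=
    (Polynomial.map_ne_zero_iff (algebraMap K C).injective).mpr (minpoly.ne_zero hint)
  obtain ⟨θ, hθ⟩ : ∃ θ : C, aeval θ (minpoly K (h : D)) = 0 := by
    obtain ⟨θ, hθ⟩ := hC.exists_eval_eq_zero (by
      rw [Polynomial.degree_map]
      exact (minpoly.degree_pos hint).ne')
    exact ⟨θ, by rwa [Polynomial.eval_map_algebraMap] at hθ⟩
  obtain ⟨F, φ, hF, hFf, hφ, hFe⟩ := exists_field hint θ hθ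
  have hFn : finrank K F = n := hF.trans hdeg
  refine ⟨F, φ, hFn, hFf, hφ, fun p hp hpn => ?_⟩
  have : Fact p.Prime := ⟨hp⟩
  obtain ⟨f, R, hmono, hR0, hRf, -, hst⟩ := H327.Tower.chain (K := K) (L := C) p
  refine ⟨R 0, PC OT C (R 0) c', inferInstance, hR0, ?_, fun w hw0 hw => ?_⟩
  · have key : ∀ j ≤ f, Ch N ν (Near OT K cK) ε F φ (R (f - j)) (PC OT C (R (f - j)) c') := by
      intro j
      induction j with
      | zero =>
        intro _
        have h1 : F ≤ R (f - 0) := by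
          rw [Nat.sub_zero, hRf]
          exact le_top
        exact Ch.top _ _ h1 inferInstance fun x _ hPx i =>
          top_pc hν hO hc'0 hc' hc'ε F _ h1 φ x hPx i
      | succ j ih =>
        intro hj
        have h2 : f - (j + 1) + 1 = f - j := by omega
        have h3 : R (f - (j + 1)) ≤ R (f - (j + 1) + 1) := hmono (Nat.le_succ _)
        obtain ⟨h4, h5⟩ := hst (f - (j + 1)) (by omega) h3
        have h6 := ih (by omega)
        rw [← h2] at h6
        refine Ch.step _ _ _ _ inferInstance ?_ h6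
        obtain ⟨d₁, hd₁, hop⟩ := hopen (R (f - (j + 1) + 1))
        obtain ⟨c₁, hc₁, hTN1⟩ := hTN p hp hpn _ _ h3 h4 h5 d₁ hd₁
        let i1 : Algebra (R (f - (j + 1))) (R (f - (j + 1) + 1)) :=
          (IntermediateField.inclusion h3).toRingHom.toAlgebra
        have i2 : IsScalarTower K (R (f - (j + 1))) (R (f - (j + 1) + 1)) :=
          IsScalarTower.of_algebraMap_eq fun _ => rfl
        exact stepH_pc hc' hc₁
          (stepH_of_TN hN hν hDf hO hsm hSp1 hSpm hSpl hcK0 hcK hTN1) hop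
    have h6 := key f le_rfl
    rwa [Nat.sub_self] at h6
  · obtain ⟨d, hd, hop⟩ := hopen (R 0)
    exact bot_pc hc' hd hop hw0 (hbot w hw0 hw)

end

end Vale.Agent.P011.H699.Odd
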