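import Vale.Agent.P011.H699.Odd.TypDef
import Vale.Agent.P011.H74.Odd.TtoA
import Vale.Agent.P011.H167.TNStar
import Vale.Agent.P011.H74.Odd.BotC

/-!
**The commutators of the unitary elements close to one, over function fields, every degree.**

The assembly: from the openness of norms, the uniform approximation over a fixed field, the lemma
of Krasner and the split elements.
-/

open Polynomial Module
open scoped commutatorElement

set_option linter.unusedSectionVars false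
set_option linter.style.haveILetI false

namespace Vale.Agent.P011.H699.Odd.TypC

open Vale.Agent.P011.H738 Vale.Agent.P011.H271 Vale.Agent.P011.H271.S3 Vale.Agent.P011.H973.PF
open Vale.Agent.P011.H511.FF Vale.Agent.P011.H698 Vale.Agent.P011.H704.HQ
open Vale.Agent.P011.H271.StarF
open Vale.Agent.P011.H496.Spl (SplAt exists_split)
open Vale.Agent.P011.H699.Odd Vale.Agent.P011.H74.Odd

variable {k K D Ω : Type} [Field k] [Field K] [StarRing K] [DivisionRing D] [StarRing D]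
  [Algebra k K] [Algebra k D] [Algebra K D] [IsScalarTower k K D] [StarModule K D] {n N : ℕ}
  [Field Ω] [Algebra K Ω]

/-- The right multiplication is continuous. -/
theorem sm_mulR [GFF k] (B : Basis (Fin N) k D) {T : Set (Place k)} (hT : T.Finite) (y : D)
    {δ : ℝ} (hδ : 0 < δ) : ∃ η : ℝ, 0 < η ∧ ∀ x : D, (∀ v ∈ T, Sm B v η x) →
      ∀ v ∈ T, Sm B v δ (x * y) := by
  obtain ⟨C, h1, -, h3⟩ := lin_bd B B (LinearMap.mulRight k y)
  obtain ⟨M, hM⟩ := (hT.image C).bddAbove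
  have hM1 : 0 < max M 1 := lt_max_of_lt_right one_pos
  refine ⟨δ / (2 * max M 1), by positivity, fun x hx v hv => ?_⟩
  have h4 := h3 v (δ / (2 * max M 1)) x (by positivity) (hx v hv).bd
  rw [LinearMap.mulRight_apply] at h4
  refine h4.sm ?_
  have h5 : C v ≤ max M 1 := (hM ⟨v, hv, rfl⟩).trans (le_max_left _ _)
  have h6 : C v * (δ / (2 * max M 1)) ≤ max M 1 * (δ / (2 * max M 1)) :=
    mul_le_mul_of_nonneg_right h5 (by positivity)
  refine h6.trans_lt ?_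
  have h7 : max M 1 * (δ / (2 * max M 1)) = δ / 2 := by
    field_simp
  rw [h7]
  exact half_lt_self hδ

/-- **The elements close to a separable element are good.** -/
theorem good_near [GFF K] {ι : Type} {ν : ι → AbsoluteValue D ℝ} {J : Type}
    {T : Set (Place k)} (hT' : (abT K T).Finite) {pl : J → Set (Place K)}
    (hJ : ∀ S : Finset (Place K), (∀ V ∈ S, V ∉ abT K T) → ∃ j, ↑S ⊆ pl j)
    (B : Basis (Fin N) k D)
    (hkr : Kras (K := K) B n T) {R : D →* K} (hR : Rn n R) (hν : Fa ν)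
    (hDf : ∀ q : D, IsIntegral K q)
    (hO : ∀ i, ∀ c ∈ OT (abT K T), ν i (algebraMap K D c) ≤ 1)
    (hsm : ∀ ε : ℝ, 0 < ε → ∃ c ∈ OT (abT K T), c ≠ 0 ∧ ∀ i, ν i (algebraMap K D c) < ε)
    (hSpl : SplE n R ν (SpF pl)) {ε : ℝ} {c' : K} (hc'0 : c' ≠ 0) (hc' : c' ∈ OT (abT K T))
    (hc'ε : ∀ i, ν i (algebraMap K D c') < ε) {t₀ : D} (hdeg : (minpoly K t₀).natDegree = n)
    (hsep : (minpoly K t₀).Separable) :
    ∃ cB ∈ OT (abT K T), cB ≠ 0 ∧ ∃ δ : ℝ, 0 < δ ∧ ∀ cK ∈ OT (abT K T), cK ≠ 0 → ∀ x : Dˣ,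
      (∀ v ∈ T, Sm B v δ ((x : D) - t₀)) → ∃ (C : Type) (_ : Field C) (_ : Algebra K C),
        GoodC n R ν (Near (OT (abT K T)) K cK) (Near (OT (abT K T)) K cB) ε C x := by
  have hG0 : IsGalois K (minpoly K t₀).SplittingField :=
    IsGalois.of_separable_splitting_field hsep
  obtain ⟨cB, hcB0, hcBO, hB⟩ := botC hT' hsep hc'0 hc'
  obtain ⟨δ, hδ, hK⟩ := hkr t₀ hdeg hsep (minpoly K t₀).SplittingField inferInstance
  refine ⟨cB, hcBO, hcB0, δ, hδ, fun cK hcK hcK0 x hx => ?_⟩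
  obtain ⟨hdx, hsx, hspx⟩ := hK (x : D) hx
  obtain ⟨C, iF, iA, hfC, hGC, hC, hop, hbo⟩ := hB (minpoly K (x : D)) hsx hspx
  refine ⟨C, iF, iA, ?_⟩
  refine goodC_of hR hν hDf hO hsm
    (fun j => ⟨fun V _ => by
      rw [Polynomial.map_one]
      exact Polynomial.Splits.one, fun q hq h => (hq.not_isUnit (isUnit_of_dvd_one h)).elim⟩)
    (fun j P Q hP hQ => hP.mul hQ) hSpl hcK0 hcK hc'0 hc' hc'ε hdx hC hop hbo ?_
  · intro p hp hpn F F' h hG hd c hc0
    let i1 : Algebra F F' := (IntermediateField.inclusion h).toRingHom.toAlgebra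
    have i2 : IsScalarTower K F F' := IsScalarTower.of_algebraMap_eq fun _ => rfl
    have i3 : IsGalois F F' := hG
    have hd' : finrank F F' = p := hd
    obtain ⟨c₁, -, hc₁, h1⟩ := H167.TNP.tn_star hT' pl hJ hp hd' hc0
    exact ⟨c₁, hc₁, h1⟩

/-- Hilbert 90: a unitary element close to one at `T` has a reduced norm `w / star w` with `w`
close to one. -/
theorem exists_w [GFF k] [GFF K] [FiniteDimensional k K] [FiniteDimensional K D]
    (hA : Anis k K D n)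
    (f : D →ₐ[K] Matrix (Fin n) (Fin n) Ω) (B : Basis (Fin N) k D) {T : Set (Place k)}
    (hT : T.Finite) (hTne : T.Nonempty) {R : D →* K} (hR : Rn n R)
    (hdet : ∀ x, (f x).det = algebraMap K Ω (R x)) {cK : K} (hc0 : cK ≠ 0) :
    ∃ δ : ℝ, 0 < δ ∧ ∀ u : Dˣ, u ∈ Ug D → Nr B T δ (u : D) →
      ∃ w : K, Near (OT (abT K T)) K cK w ∧ Qt R u w := by
  obtain ⟨v1, hv1⟩ := hTne
  obtain ⟨V1, hV1⟩ := exists_above_ab (K := K) v1
  obtain ⟨κ, hκ⟩ : ∃ κ : K, κ + star κ = 1 := by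
    obtain ⟨x, hx⟩ := hA.star_ne
    have h1 : x - star x ≠ 0 := sub_ne_zero.2 fun h => hx h.symm
    have h2 : star x - x ≠ 0 := sub_ne_zero.2 hx
    refine ⟨x / (x - star x), ?_⟩
    rw [star_div₀, star_sub, star_star]
    field_simp
    ring
  have hr : ∀ V : Place K, 0 < min (V.abv cK) (1 / 2) / (V.abv (star κ) + 1) := fun V => by
    have h1 := V.abv.pos hc0
    have h2 := V.abv.nonneg (star κ)
    positivity
  obtain ⟨δ2, hδ2, hnrd⟩ := nrd_near (K := K) f hdet B hT _ hr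
  have hbound : ∀ u : Dˣ, Nr B T δ2 (u : D) → ∀ V ∈ abT K T,
      V.abv (R (u : D) - 1) * V.abv (star κ) ≤ min (V.abv cK) (1 / 2) := by
    rintro u hu V ⟨v, hv, hV⟩
    have h1 := hnrd _ hu v hv V hV
    have h2 := V.abv.nonneg (star κ)
    have h3 : 0 < V.abv (star κ) + 1 := by linarith
    rw [lt_div_iff₀ h3] at h1
    have h4 := V.abv.nonneg (R (u : D) - 1)
    nlinarith
  refine ⟨δ2, hδ2, fun u huU hu => ?_⟩
  have hb : R (u : D) * star (R (u : D)) = 1 := by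
    rw [← hR.star, ← map_mul, mem_Ug.1 huU, map_one]
  refine ⟨κ + R (u : D) * star κ, ⟨(κ + R (u : D) * star κ - 1) / cK,
    Itg.alg fun V hV => ?_, ?_⟩, ?_, (hil_near (V := V1) hκ hb).1⟩
  · change V.abv ((κ + R (u : D) * star κ - 1) / cK) ≤ 1
    rw [map_div₀, (hil_near hκ hb).2]
    exact div_le_one_of_le₀ ((hbound u hu V hV).trans (min_le_left _ _)) (V.abv.nonneg _)
  · rw [Algebra.algebraMap_self, RingHom.id_apply, mul_div_cancel₀ _ hc0]
    ring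
  · intro h0
    have h1 := (hil_near (V := V1) hκ hb).2
    rw [h0, zero_sub, AbsoluteValue.map_neg, map_one] at h1
    have h2 := (hbound u hu V1 ⟨v1, hv1, hV1⟩).trans (min_le_right _ _)
    rw [← h1] at h2
    norm_num at h2

/-- **(E) over function fields**, every degree: the commutators of the unitary elements close to
one are in `Q`, from the three inputs and the split elements. -/
theorem e_typ (hk : IsGlobalFunctionField k) [GFF k] (hA : Anis k K D n)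
    (hn3 : 3 ≤ n) (f : D →ₐ[K] Matrix (Fin n) (Fin n) Ω)
    (B : Basis (Fin N) k D) {T : Set (Place k)} (hT : T.Finite) (hTne : T.Nonempty)
    (hTA : Adiv k K D ⊆ T) (hkr : Kras (K := K) B n T)
    (hspl : ∀ (ι : Type) (ν : ι → AbsoluteValue D ℝ), NuF k K D B ν → ∀ R : D →* K,
      (∀ x, (f x).det = algebraMap K Ω (R x)) → SplE n R ν (SpF (plF K T)))
    (hbase : ∀ η : ℝ, 0 < η → ∃ g : SUA f, Nr B T η ((g : Dˣ) : D) ∧
      (minpoly K ((g : Dˣ) : D)).natDegree = n ∧ (minpoly K ((g : Dˣ) : D)).Separable)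
    {ε0 : ℝ} (hε0 : 0 < ε0) :
    ∃ η : ℝ, 0 < η ∧ ∀ Q H : Subgroup (SUA f), Q ≤ H →
      (∀ g : SUA f, Nr B (Adiv k K D) ε0 ((g : Dˣ) : D) → g ∈ H) →
      (∀ g : SUA f, ∀ x ∈ H, ⁅g, x⁆ ∈ Q) →
      ∀ u w : UA D, Nr B T η ((u : Dˣ) : D) → Nr B T η ((w : Dˣ) : D) →
        ⁅(u : Dˣ), (w : Dˣ)⁆ ∈ Q.map (SUA f).subtype := by
  classical
  have hfd : FiniteDimensional K D := Module.finite_of_finrank_pos (by
    rw [hA.finrank_eq]
    positivity)
  have hq := H519.quad hA.fixed hA.star_ne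
  haveI : FiniteDimensional k K := hq.1
  haveI : GFF K := Hey.H63.gff_of_finite (k := k)
  obtain ⟨v1, hv1⟩ := id hTne
  obtain ⟨V1, hV1⟩ := exists_above_ab (K := K) v1
  haveI : Infinite K := infinite_of_place V1
  haveI := hA.central
  have hsalg : ∀ c : K, star (algebraMap K D c) = algebraMap K D (star c) := fun c => by
    rw [Algebra.algebraMap_eq_smul_one, star_smul, star_one, ← Algebra.algebraMap_eq_smul_one]
  obtain ⟨R, hR, -, hRdet⟩ := H327.TN.exists_rn (n := n) hA.finrank_eq hsalg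
  have hdet : ∀ x, (f x).det = algebraMap K Ω (R x) := hRdet Ω f
  obtain ⟨ι, _, ν, hν⟩ := exists_nuF hA (by omega) f B
  have hT' : (abT K T).Finite := abT_finite hT
  have hAT : abT K (Adiv k K D) ⊆ abT K T := fun V ⟨v, hv, h⟩ => ⟨v, hTA hv, h⟩
  have hO : ∀ i, ∀ c ∈ OT (abT K T), ν i (algebraMap K D c) ≤ 1 := by
    intro i c hc
    obtain ⟨V, hV, h⟩ := hν.pl i
    have h1 := (h c 1).1 (by
      rw [map_one]
      exact hc V (hAT hV))
    rwa [map_one, map_one] at h1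
  have hsmk : ∀ δ : ℝ, 0 < δ → ∃ m : k, m ≠ 0 ∧ ∀ v ∈ T, v.abv m < δ := by
    intro δ hδ
    obtain ⟨m, hm, h⟩ := exists_small_scalar hT.toFinset (fun _ => δ) fun _ => hδ
    exact ⟨m, hm, fun v hv => h v (hT.mem_toFinset.2 hv)⟩
  have hOTm : ∀ m : k, (∀ v ∈ T, v.abv m ≤ 1) → algebraMap k K m ∈ OT (abT K T) := by
    rintro m hm V ⟨v, hv, hV⟩
    exact hV.le_one (hm v hv)
  have hsm : ∀ ε : ℝ, 0 < ε → ∃ c ∈ OT (abT K T), c ≠ 0 ∧
      ∀ i, ν i (algebraMap K D c) < ε := by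
    intro ε hε
    obtain ⟨m, hm, h⟩ := hsmk (min ε 1) (lt_min hε one_pos)
    refine ⟨algebraMap k K m, hOTm m fun v hv => ((h v hv).trans_le (min_le_right _ _)).le,
      (_root_.map_ne_zero _).2 hm, fun i => ?_⟩
    obtain ⟨v, hv, h1⟩ := hν.alg i
    rw [← IsScalarTower.algebraMap_apply, h1]
    exact (h v (hTA hv)).trans_le (min_le_left _ _)
  -- a place outside `T`
  obtain ⟨v0, hv0, -⟩ := H519.exists_split_place hk hA (by omega) hT.toFinset 0
  have hv0T : v0 ∉ T := fun h => hv0 (hT.mem_toFinset.2 h)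
  choose bel hbel using fun W : Place K => exists_below_ab (k := k) W
  have hJ : ∀ S : Finset (Place K), (∀ V ∈ S, V ∉ abT K T) →
      ∃ j : JF T, (S : Set (Place K)) ⊆ plF K T j := by
    intro S hS
    refine ⟨⟨insert v0 (S.image bel), Finset.insert_nonempty _ _, fun v hv => ?_⟩,
      fun V hV => ⟨bel V, ?_, hbel V⟩⟩
    · rcases Finset.mem_insert.1 hv with rfl | hv
      · exact hv0T
      · obtain ⟨V, hV, rfl⟩ := Finset.mem_image.1 hv
        exact fun h => hS V hV ⟨_, h, hbel V⟩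
    · exact Finset.mem_coe.2 (Finset.mem_insert_of_mem (Finset.mem_image_of_mem _ hV))
  have hsp := hspl ι ν hν R hdet
  have hDf : ∀ q : D, IsIntegral K q := fun x => Algebra.IsIntegral.isIntegral x
  obtain ⟨δ0, hδ0, hge⟩ := hν.ge ε0 hε0
  set ε : ℝ := min δ0 1 with hεdef
  have hε : 0 < ε := lt_min hδ0 one_pos
  have hε1 : ε ≤ 1 := min_le_right _ _
  -- the invariance
  obtain ⟨c₁, hc₁O, hc₁0, hc₁ε⟩ := hsm ε hε
  obtain ⟨δa, hδa, hlea⟩ := hν.le ε hε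
  obtain ⟨t₀, ht₀, hdt₀, hst₀⟩ := hbase δa hδa
  have ht₀G : (t₀ : Dˣ) ∈ Gg R := (mem_Gg_iff hdet).2 t₀.2
  have ht₀b : Bl ν ε (t₀ : Dˣ) := hlea _ fun v hv => ht₀ v (hTA hv)
  obtain ⟨cB, hcBO, hcB0, δ, hδ, hgood⟩ := good_near hT' hJ B hkr hR hν.fa hDf hO hsm hsp
    hc₁0 hc₁O hc₁ε hdt₀ hst₀
  obtain ⟨η, hη, hηm⟩ := sm_mulR B hT ((t₀ : Dˣ) : D) hδ
  have hone : (1 : K) ∈ OT (abT K T) := one_mem _
  obtain ⟨ε', hε', hε'ε, hinv⟩ := inv1_of_T hk hA hn3 f B hν hdet hT hTA hη hε hε1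
  have hInv : ∀ (E : Type) [CommGroup E] (X : Set (Dˣ → E)), Fam R ν ε X →
      Inv1 R ν ε' X (Near (OT (abT K T)) K cB) := by
    intro E _ X hX
    refine hinv E X _ hX fun χ hχ u w hu hw huw h hh hhb hhn => ?_
    obtain ⟨C₁, iF₁, iA₁, hg1⟩ := hgood 1 hone one_ne_zero (t₀ : Dˣ) fun v _ => by
      rw [sub_self]
      exact sm_zero hδ
    obtain ⟨C₂, iF₂, iA₂, hg2⟩ := hgood 1 hone one_ne_zero (h * (t₀ : Dˣ)) fun v hv => by
      have h1 := hηm _ hhn v hv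
      rwa [sub_mul, one_mul, ← Units.val_mul] at h1
    exact inv1C hR hν.fa hε hε1 hX hh hhb ht₀G ht₀b hg1 hg2 χ hχ u w hu hw huw
  -- the commutators
  have hε'1 : ε' ≤ 1 := hε'ε.trans hε1
  obtain ⟨c₂, hc₂O, hc₂0, hc₂ε⟩ := hsm ε' hε'
  obtain ⟨δb, hδb, hleb⟩ := hν.le ε' hε'
  obtain ⟨t₁, ht₁, hdt₁, hst₁⟩ := hbase δb hδb
  have ht₁G : (t₁ : Dˣ) ∈ Gg R := (mem_Gg_iff hdet).2 t₁.2
  have ht₁b : Bl ν ε' (t₁ : Dˣ) := hleb _ fun v hv => ht₁ v (hTA hv)
  obtain ⟨cB', hcBO', hcB0', δ', hδ', hgood'⟩ := good_near hT' hJ B hkr hR hν.fa hDf hO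
    hsm hsp hc₂0 hc₂O hc₂ε hdt₁ hst₁
  obtain ⟨η', hη', hηm'⟩ := sm_mulR B hT ((t₁ : Dˣ) : D) hδ'
  -- the bottom radius
  set cT : K := cB * (cB' * c₂) with hcT
  have hcT0 : cT ≠ 0 := mul_ne_zero hcB0 (mul_ne_zero hcB0' hc₂0)
  obtain ⟨δw, hδw, hw⟩ := exists_w hA f B hT hTne hR hdet hcT0
  have hn1 : ∀ w : K, Near (OT (abT K T)) K cT w → Near (OT (abT K T)) K cB w := fun w hw =>
    hw.mono (mul_mem hcBO' hc₂O)
  have hn2 : ∀ w : K, Near (OT (abT K T)) K cT w → Near (OT (abT K T)) K cB' w := fun w hw => by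
    have h1 : cT = cB' * (cB * c₂) := by rw [hcT]; ring
    rw [h1] at hw
    exact hw.mono (mul_mem hcBO hc₂O)
  have hn3' : ∀ w : K, w ≠ 0 → Near (OT (abT K T)) K cT w → ∀ i,
      ν i (algebraMap K D w - 1) < ε' := by
    intro w _ hw i
    have h1 : cT = c₂ * (cB * cB') := by rw [hcT]; ring
    rw [h1] at hw
    exact (near_abv (ν i) (hν.fa.ult i) (hO i) (Algebra.ofId K D)
      (hw.mono (mul_mem hcBO hcBO'))).trans_lt (hc₂ε i)
  refine ⟨min δw (min η' δb), lt_min hδw (lt_min hη' hδb), fun Q H hQH hH hc u w hu hw' => ?_⟩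
  have hb : ∀ g ∈ Gg R, Bl ν ε g → g ∈ H.map (SUA f).subtype := by
    intro g hg hgb
    refine ⟨⟨g, (mem_Gg_iff hdet).1 hg⟩, hH _ fun v hv => ?_, rfl⟩
    exact hge _ (fun i => (hgb i).trans_le (min_le_left _ _)) v hv
  obtain ⟨E, iE, X, χ, hX, hχ, h1, -⟩ := exists_fam (ν := ν) (ε := ε)
    (Q := Q.map (SUA f).subtype) (H := H.map (SUA f).subtype)
    (N := R) (Subgroup.map_mono hQH) (by
      rintro - ⟨x, -, rfl⟩
      exact (mem_Gg_iff hdet).2 x.2) (by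
      rintro g hg - ⟨x, hx, rfl⟩
      exact ⟨⁅(⟨g, (mem_Gg_iff hdet).1 hg⟩ : SUA f), x⁆, hc _ x hx, rfl⟩) hb
  have hI := hInv E X hX
  have hX' : Fam R ν ε' X := hX.mono hε'ε
  have huU : (u : Dˣ) ∈ Ug D := u.2
  have hwU : (w : Dˣ) ∈ Ug D := w.2
  have hub : Bl ν ε' (u : Dˣ) := hleb _ fun v hv =>
    (hu v (hTA hv)).mono ((min_le_right _ _).trans (min_le_right _ _))
  have hwb : Bl ν ε' (w : Dˣ) := hleb _ fun v hv =>
    (hw' v (hTA hv)).mono ((min_le_right _ _).trans (min_le_right _ _))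
  obtain ⟨w₁, hw₁, hq₁⟩ := hw (u : Dˣ) huU (hu.mono (min_le_left _ _))
  obtain ⟨w₂, hw₂, hq₂⟩ := hw (w : Dˣ) hwU (hw'.mono (min_le_left _ _))
  obtain ⟨C, iF, iA, hg⟩ := hgood' cB hcBO hcB0 ((u : Dˣ) * (t₁ : Dˣ)) fun v hv => by
    have h2 := hηm' (((u : Dˣ) : D) - 1) (fun v hv =>
      (hu v hv).mono ((min_le_right _ _).trans (min_le_left _ _))) v hv
    rwa [sub_mul, one_mul, ← Units.val_mul] at h2
  have hfin : χ ⁅(u : Dˣ), (w : Dˣ)⁆ = 1 := by
    refine comm3C (Ω := C) (PK := Near (OT (abT K T)) K cB)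
      (PB := fun w => Near (OT (abT K T)) K cT w) hR hν.fa hε' hε'1 hX' hI hn1 hn3'
      huU hub (hn1 _ hw₁) hq₁ hwU hwb hw₂ hq₂ ht₁G ht₁b ?_ χ hχ
    exact hg.mono_pb hn2
  exact h1 _ (hb _ (Gg_comm huU hwU) ((hub.mono hε'ε).comm hε1 hν.fa)) hfin

end Vale.Agent.P011.H699.Odd.TypC
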