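import Vale.Agent.P011.H699.Odd.Main

/-!
**The characters of a central quotient of an open normal subgroup.**
-/

open Module Polynomial
open scoped commutatorElement

set_option linter.unusedSectionVars false

namespace Vale.Agent.P011.H699.Odd

variable {K D : Type} [Field K] [StarRing K] [DivisionRing D] [StarRing D] [Algebra K D]
  {n : ℕ} {N : D →* K} {ι : Type} {ν : ι → AbsoluteValue D ℝ}

/-- **The family of characters**: `Q ≤ H` are subgroups of the group `G` of the unitary elements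
of reduced norm one, `[G, H] ≤ Q`, and the elements of `G` close to one are in `H`. -/
theorem exists_fam {ε : ℝ} {Q H : Subgroup Dˣ}
    (hQH : Q ≤ H) (hHG : H ≤ Gg N) (hc : ∀ g ∈ Gg N, ∀ x ∈ H, ⁅g, x⁆ ∈ Q)
    (hHε : ∀ g ∈ Gg N, Bl ν ε g → g ∈ H) :
    ∃ (E : Type) (_ : CommGroup E) (X : Set (Dˣ → E)) (χ : Dˣ → E), Fam N ν ε X ∧ χ ∈ X ∧
      (∀ x ∈ H, χ x = 1 → x ∈ Q) ∧ ∀ x ∈ H, ∀ y ∈ H, χ x = χ y → x * y⁻¹ ∈ Q := by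
  classical
  have hnorm : (Q.subgroupOf H).Normal := by
    refine ⟨fun x hx g => ?_⟩
    rw [Subgroup.mem_subgroupOf] at hx ⊢
    have h1 : ⁅(g : Dˣ), (x : Dˣ)⁆ ∈ Q := hc _ (hHG g.2) _ x.2
    have h2 : ((g * x * g⁻¹ : H) : Dˣ) = ⁅(g : Dˣ), (x : Dˣ)⁆ * (x : Dˣ) := by
      rw [commutatorElement_def]
      simp only [Subgroup.coe_mul, Subgroup.coe_inv]
      group
    rw [h2]
    exact mul_mem h1 hx
  let E : Type := H ⧸ (Q.subgroupOf H)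
  have hcomm : ∀ a b : E, a * b = b * a := by
    intro a b
    induction a using QuotientGroup.induction_on with
    | H a =>
      induction b using QuotientGroup.induction_on with
      | H b =>
        rw [← QuotientGroup.mk_mul, ← QuotientGroup.mk_mul, QuotientGroup.eq,
          Subgroup.mem_subgroupOf]
        have h1 : ⁅((b⁻¹ : H) : Dˣ), ((a⁻¹ : H) : Dˣ)⁆ ∈ Q := hc _ (hHG (b⁻¹).2) _ (a⁻¹).2
        have h2 : (((a * b)⁻¹ * (b * a) : H) : Dˣ) = ⁅((b⁻¹ : H) : Dˣ), ((a⁻¹ : H) : Dˣ)⁆ := by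
          rw [commutatorElement_def]
          simp only [Subgroup.coe_mul, Subgroup.coe_inv, inv_inv]
          group
        rw [h2]
        exact h1
  let cg : CommGroup E := { (inferInstance : Group (H ⧸ (Q.subgroupOf H))) with
    mul_comm := hcomm }
  let χ₀ : Dˣ → E := fun g => if h : g ∈ H then ((⟨g, h⟩ : H) : H ⧸ (Q.subgroupOf H)) else 1
  have hχ : ∀ g (h : g ∈ H), χ₀ g = ((⟨g, h⟩ : H) : H ⧸ (Q.subgroupOf H)) := fun g h => dif_pos h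
  have hmul : ∀ g ∈ H, ∀ h ∈ H, χ₀ (g * h) = χ₀ g * χ₀ h := by
    intro g hg h hh
    rw [hχ g hg, hχ h hh, hχ (g * h) (mul_mem hg hh)]
    rfl
  have heq : ∀ x ∈ H, ∀ y ∈ H, x * y⁻¹ ∈ Q → χ₀ x = χ₀ y := by
    intro x hx y hy hxy
    rw [hχ x hx, hχ y hy]
    refine QuotientGroup.eq.mpr ?_
    rw [Subgroup.mem_subgroupOf]
    have h1 : ⁅x⁻¹, x * y⁻¹⁆ ∈ Q := hc _ (inv_mem (hHG hx)) _ (hQH hxy)
    have h2 : (((⟨x, hx⟩ : H)⁻¹ * ⟨y, hy⟩ : H) : Dˣ) = (⁅x⁻¹, x * y⁻¹⁆ * (x * y⁻¹))⁻¹ := by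
      rw [commutatorElement_def]
      simp only [Subgroup.coe_mul, Subgroup.coe_inv]
      group
    rw [h2]
    exact inv_mem (mul_mem h1 hxy)
  have hinj : ∀ x ∈ H, ∀ y ∈ H, χ₀ x = χ₀ y → x * y⁻¹ ∈ Q := by
    intro x hx y hy hxy
    rw [hχ x hx, hχ y hy] at hxy
    have h3 := QuotientGroup.eq.mp hxy
    rw [Subgroup.mem_subgroupOf] at h3
    have h4 : (x⁻¹ * y)⁻¹ ∈ Q := inv_mem h3
    have h5 : ⁅x, (x⁻¹ * y)⁻¹⁆ ∈ Q := hc _ (hHG hx) _ (hQH h4)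
    have h6 : x * y⁻¹ = ⁅x, (x⁻¹ * y)⁻¹⁆ * (x⁻¹ * y)⁻¹ := by
      rw [commutatorElement_def]
      group
    rw [h6]
    exact mul_mem h5 h4
  have hmem : ∀ u ∈ Ug D, ∀ h ∈ Gg N, Bl ν ε h → u * h * u⁻¹ ∈ H := fun u hu h hh hb =>
    hHε _ (Gg_conj hh hu) (hb.conj u)
  refine ⟨E, cg, {χ | ∃ u ∈ Ug D, χ = fun h => χ₀ (u * h * u⁻¹)}, χ₀, ⟨?_, ?_, ?_⟩,
    ⟨1, one_mem _, ?_⟩, ?_, hinj⟩
  · rintro χ ⟨u, hu, rfl⟩ g h hg hgb hh hhb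
    have h1 : u * (g * h) * u⁻¹ = (u * g * u⁻¹) * (u * h * u⁻¹) := by group
    change χ₀ (u * (g * h) * u⁻¹) = χ₀ (u * g * u⁻¹) * χ₀ (u * h * u⁻¹)
    rw [h1]
    exact hmul _ (hmem u hu g hg hgb) _ (hmem u hu h hh hhb)
  · rintro χ ⟨u, hu, rfl⟩ g h hg hh hhb
    change χ₀ (u * (g * h * g⁻¹) * u⁻¹) = χ₀ (u * h * u⁻¹)
    have h1 : u * h * u⁻¹ ∈ H := hmem u hu h hh hhb
    have h2 : u * (g * h * g⁻¹) * u⁻¹ ∈ H :=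
      hHε _ (Gg_conj (Gg_conj hh hg.1) hu) ((hhb.conj g).conj u)
    refine heq _ h2 _ h1 ?_
    have h3 : u * (g * h * g⁻¹) * u⁻¹ * (u * h * u⁻¹)⁻¹ =
        ⁅u * g * u⁻¹, u * h * u⁻¹⁆ := by
      rw [commutatorElement_def]
      group
    rw [h3]
    exact hc _ (Gg_conj hg hu) _ h1
  · rintro χ ⟨u, hu, rfl⟩ v hv
    refine ⟨u * v, mul_mem hu hv, ?_⟩
    funext h
    have h1 : u * (v * h * v⁻¹) * u⁻¹ = (u * v) * h * (u * v)⁻¹ := by group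
    change χ₀ (u * (v * h * v⁻¹) * u⁻¹) = χ₀ ((u * v) * h * (u * v)⁻¹)
    rw [h1]
  · funext h
    rw [one_mul, inv_one, mul_one]
  · intro x hx h1
    have h2 : χ₀ x = χ₀ 1 := by
      rw [h1, hχ 1 (one_mem _)]
      rfl
    have h3 := hinj x hx 1 (one_mem _) h2
    rwa [inv_one, mul_one] at h3

/-- **The commutators of the unitary elements close to one are in `Q`**, from the theorem on the
characters. -/
theorem comm_mem_of (hν : Fa ν) {ε : ℝ} (hε : ε ≤ 1) {PK : K → Prop}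
    (hmain : ∀ (E : Type) [CommGroup E] (X : Set (Dˣ → E)), Fam N ν ε X → Inv1 N ν ε X PK ∧
        ∀ u₁ u₂ : Dˣ, u₁ ∈ Ug D → u₂ ∈ Ug D → Bl ν ε u₁ → Bl ν ε u₂ →
          ∀ w₁ w₂ : K, PK w₁ → PK w₂ → Qt N u₁ w₁ → Qt N u₂ w₂ → ∀ χ ∈ X, χ ⁅u₁, u₂⁆ = 1)
    {Q H : Subgroup Dˣ}
    (hQH : Q ≤ H) (hHG : H ≤ Gg N) (hc : ∀ g ∈ Gg N, ∀ x ∈ H, ⁅g, x⁆ ∈ Q)
    (hHε : ∀ g ∈ Gg N, Bl ν ε g → g ∈ H) :
    (∀ u ∈ Ug D, ∀ w : K, PK w → Qt N u w → ∀ h ∈ Gg N, Bl ν ε h → ⁅u, h⁆ ∈ Q) ∧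
      ∀ u₁ ∈ Ug D, ∀ u₂ ∈ Ug D, Bl ν ε u₁ → Bl ν ε u₂ → ∀ w₁ w₂ : K, PK w₁ → PK w₂ →
        Qt N u₁ w₁ → Qt N u₂ w₂ → ⁅u₁, u₂⁆ ∈ Q := by
  obtain ⟨E, iE, X, χ, hX, hχ, h1, h2⟩ := exists_fam (ν := ν) (ε := ε) hQH hHG hc hHε
  obtain ⟨hI, hC⟩ := hmain E X hX
  refine ⟨fun u hu w hw huw h hh hhb => ?_,
    fun u₁ hu₁ u₂ hu₂ hb₁ hb₂ w₁ w₂ hw₁ hw₂ hq₁ hq₂ => ?_⟩
  · have h3 := hI χ hχ u w hu hw huw h hh hhb
    have h4 := h2 _ (hHε _ (Gg_conj hh hu) (hhb.conj u)) _ (hHε _ hh hhb) h3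
    rwa [← commutatorElement_def] at h4
  · exact h1 _ (hHε _ (Gg_comm hu₁ hu₂) (hb₁.comm hε hν))
      (hC u₁ u₂ hu₁ hu₂ hb₁ hb₂ w₁ w₂ hw₁ hw₂ hq₁ hq₂ χ hχ)

end Vale.Agent.P011.H699.Odd
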