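import Vale.Agent.P011.H699.Odd.OfTN

/-!
**The invariance and the pairing from the two-field norm lemma and the split elements**
(towers over fields which contain the roots of unity).
-/

open Module Polynomial
open scoped commutatorElement

set_option linter.unusedSectionVars false

namespace Vale.Agent.P011.H699.Odd

variable {K D : Type} [Field K] [StarRing K] [DivisionRing D] [StarRing D] [Algebra K D]
  {n : ℕ} {N : D →* K} {ι : Type} {ν : ι → AbsoluteValue D ℝ} {OT : Subring K}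
  {Ω : Type} [Field Ω] [Algebra K Ω]

/-- the bound for the length of the towers -/
def BdZ (n p f : ℕ) : Prop := p ^ f ∣ (p * n).factorial

/-- **The elements of degree `n` are good.** -/
theorem goodEl_of [IsAlgClosed Ω] [Normal K Ω] (hDf : ∀ q : D, IsIntegral K q) {h : Dˣ}
    (hdeg : (minpoly K (h : D)).natDegree = n) (hsep : (minpoly K (h : D)).Separable)
    (ζ : ℕ → Ω) (hζ : ∀ p : ℕ, p.Prime → p ∣ n → IsPrimitiveRoot (ζ p) p) :
    GoodEl n Ω (fun (p : ℕ) (R : IntermediateField K Ω) => ζ p ∈ R) (BdZ n) h := by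
  have hd : (minpoly K (h : D)).degree ≠ 0 := (minpoly.degree_pos (hDf _)).ne'
  obtain ⟨θ, hθ⟩ := IsAlgClosed.exists_aeval_eq_zero Ω (minpoly K (h : D)) hd
  obtain ⟨F, φ, hF, hFf, hφ, hFe⟩ := exists_field (hDf (h : D)) θ hθ
  refine ⟨F, φ, hF.trans hdeg, hFf, hφ, fun p hp hpn => ?_⟩
  have hm : minpoly K (h : D) = minpoly K θ :=
    minpoly.eq_of_irreducible_of_monic (minpoly.irreducible (hDf _)) hθ (minpoly.monic (hDf _))
  have hFs : Algebra.IsSeparable K F := by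
    rw [hFe]
    refine (IntermediateField.isSeparable_adjoin_simple_iff_isSeparable (F := K) (E := Ω)).mpr ?_
    unfold IsSeparable
    rw [← hm]
    exact hsep
  have : Fact p.Prime := ⟨hp⟩
  intro Q h0 h1
  obtain ⟨f, R, hf, hRf, hRs, -, hpR, hQ⟩ := H327.Tower.towerZ_induction F p (hζ p hp hpn) Q h0 h1
  rw [hF.trans hdeg] at hf
  exact ⟨f, R, hf, hRf, hRs, hpR, hQ⟩

theorem dvd_bound {n p j : ℕ} (hp : 2 ≤ p) (hpn : p ≤ n) (hj : BdZ n p j) :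
    (∃ m : ℕ, (n * n).factorial ^ 2 = (p ^ 2) ^ j * m) ∧
      ∃ l : ℕ, (n * n).factorial = j + l := by
  obtain ⟨a, ha⟩ := hj
  obtain ⟨b, hb⟩ : (p * n).factorial ∣ (n * n).factorial :=
    Nat.factorial_dvd_factorial (Nat.mul_le_mul_right n hpn)
  refine ⟨⟨(a * b) ^ 2, by rw [hb, ha]; ring⟩, ?_⟩
  have h1 : j < p ^ j := (Nat.lt_two_pow_self).trans_le (Nat.pow_le_pow_left hp j)
  have h2 : p ^ j ≤ (p * n).factorial := Nat.le_of_dvd (Nat.factorial_pos _) ⟨a, ha⟩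
  have h3 : (p * n).factorial ≤ (n * n).factorial :=
    Nat.le_of_dvd (Nat.factorial_pos _) ⟨b, hb⟩
  exact ⟨(n * n).factorial - j, by omega⟩

/-- **The hypotheses on the arithmetic, from the two-field norm lemma and the split elements.** -/
theorem ar_of {J : Type} {Sp : J → K[X] → Prop} [IsAlgClosed Ω] [Normal K Ω]
    (hn : 0 < n) (hN : Rn n N) (hν : Fa ν) (hDf : ∀ q : D, IsIntegral K q)
    (hO : ∀ i, ∀ c ∈ OT, ν i (algebraMap K D c) ≤ 1)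
    (hsm : ∀ ε : ℝ, 0 < ε → ∃ c ∈ OT, c ≠ 0 ∧ ∀ i, ν i (algebraMap K D c) < ε)
    (hSp1 : ∀ j, Sp j 1) (hSpm : ∀ j P Q, Sp j P → Sp j Q → Sp j (P * Q))
    (hJ : Nonempty J) (hSpl : SplE n N ν Sp) (hsepD : ∀ q : D, (minpoly K q).Separable)
    (h2 : (((n * n).factorial : ℕ) : K) ≠ 0)
    (ζ : ℕ → Ω) (hζ : ∀ p : ℕ, p.Prime → p ∣ n → IsPrimitiveRoot (ζ p) p)
    {q : K} (hqO : q ∈ OT) (hq0 : q ≠ 0) (hTN : ∀ p : ℕ, p.Prime → p ∣ n → ∀ (R R' : IntermediateField K Ω) (h : R ≤ R'),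
      FiniteDimensional K R → FiniteDimensional K R' → ζ p ∈ R →
      IsGalois R (IntermediateField.extendScalars h) →
      finrank R (IntermediateField.extendScalars h) = p → ∀ c ∈ OT, c ≠ 0 →
      letI := (IntermediateField.inclusion h).toRingHom.toAlgebra
      TN OT Sp R R' (q * (p : K) ^ 2 * c) c)
    {ε : ℝ} (hε : 0 < ε) : ∃ cK ∈ OT, cK ≠ 0 ∧
      ∃ P : ℕ → ℕ → ∀ R : IntermediateField K Ω, R → Prop,
        Ar n N ν ε (Near OT K cK) Ω (fun (p : ℕ) (R : IntermediateField K Ω) => ζ p ∈ R)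
          (BdZ n) P := by
  obtain ⟨c₀, hc₀O, hc₀, hc₀ε⟩ := hsm ε hε
  set m₀ := (n * n).factorial with hm₀
  have hfO : q ^ m₀ * ((m₀ : ℕ) : K) ^ 2 ∈ OT :=
    mul_mem (pow_mem hqO _) (pow_mem (natCast_mem OT _) 2)
  have hcKO : c₀ * (q ^ m₀ * ((m₀ : ℕ) : K) ^ 2) ∈ OT := mul_mem hc₀O hfO
  have hcK0 : c₀ * (q ^ m₀ * ((m₀ : ℕ) : K) ^ 2) ≠ 0 :=
    mul_ne_zero hc₀ (mul_ne_zero (pow_ne_zero _ hq0) (pow_ne_zero 2 h2))
  have hp0 : ∀ p : ℕ, p.Prime → p ∣ n → (p : K) ≠ 0 := by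
    intro p hp hpn h0
    refine h2 ?_
    obtain ⟨a, ha⟩ : p ∣ m₀ :=
      (Nat.Prime.dvd_factorial hp).mpr ((Nat.le_of_dvd hn hpn).trans (Nat.le_mul_self n))
    rw [ha, Nat.cast_mul, h0, zero_mul]
  refine ⟨c₀ * (q ^ m₀ * ((m₀ : ℕ) : K) ^ 2), hcKO, hcK0,
    fun p j R x => Near OT R (c₀ * (q * (p : K) ^ 2) ^ j) x, ?_, ?_, ?_, ?_, ?_⟩
  · intro hs hsU
    obtain ⟨j⟩ := hJ
    obtain ⟨g, hg, hgb, hgs⟩ := hSpl j hs hsU ε hε
    exact ⟨g, hg, hgb, fun h hh => goodEl_of hDf (hgs h hh).1 (hsepD _) ζ hζ⟩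
  · intro w hw hPw i
    have h1 := near_abv (ν i) (hν.ult i) (hO i) (Algebra.ofId K D) hPw
    rw [map_mul, map_mul] at h1
    refine h1.trans_lt ((mul_le_of_le_one_right ((ν i).nonneg _) (hO i _ hfO)).trans_lt (hc₀ε i))
  · intro p hp hpn j hj R w hw hPw
    obtain ⟨⟨m, hm⟩, l, hl⟩ := dvd_bound hp.two_le (Nat.le_of_dvd hn hpn) hj
    have h1 : c₀ * (q ^ m₀ * ((m₀ : ℕ) : K) ^ 2) =
        c₀ * (q * (p : K) ^ 2) ^ j * (q ^ l * (m : K)) := by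
      have h3 : ((m₀ : ℕ) : K) ^ 2 = ((p : K) ^ 2) ^ j * (m : K) := by
        rw [← Nat.cast_pow, hm, Nat.cast_mul, Nat.cast_pow, Nat.cast_pow]
      have h4 : q ^ m₀ = q ^ j * q ^ l := by rw [← pow_add, ← hl]
      rw [h3, h4, mul_pow]
      ring
    rw [h1] at hPw
    exact (hPw.mono (mul_mem (pow_mem hqO _) (natCast_mem OT m))).map (Algebra.ofId K R)
  · intro p hp hpn j R R' h hRf hRf' hRs hRs' hz hG hd
    let i1 : Algebra R R' := (IntermediateField.inclusion h).toRingHom.toAlgebra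
    have i2 : IsScalarTower K R R' := IsScalarTower.of_algebraMap_eq fun _ => rfl
    refine stepH_of_TN hN hν hDf hO hsm hSp1 hSpm hSpl hcK0 hcKO ?_
    have h3 := hTN p hp hpn R R' h hRf hRf' hz hG hd (c₀ * (q * (p : K) ^ 2) ^ j)
      (mul_mem hc₀O (pow_mem (mul_mem hqO (pow_mem (natCast_mem OT p) _)) _))
      (mul_ne_zero hc₀ (pow_ne_zero _ (mul_ne_zero hq0 (pow_ne_zero _ (hp0 p hp hpn)))))
    have h4 : c₀ * (q * (p : K) ^ 2) ^ (j + 1) =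
        q * (p : K) ^ 2 * (c₀ * (q * (p : K) ^ 2) ^ j) := by ring
    rw [h4]
    exact h3
  · intro p hp hpn F R h hRf φ hF x hx hPx i
    have h1 : c₀ * (q * (p : K) ^ 2) ^ 0 = c₀ := by rw [pow_zero, mul_one]
    rw [h1] at hPx
    let i1 : Algebra F R := (IntermediateField.inclusion h).toRingHom.toAlgebra
    have i2 : IsScalarTower K F R := IsScalarTower.of_algebraMap_eq fun _ => rfl
    have i3 : FiniteDimensional F R := FiniteDimensional.right K F R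
    exact (near_abv (ν i) (hν.ult i) (hO i) φ (hPx.norm hc₀ hc₀O)).trans_lt (hc₀ε i)

/-- **(E1) and (E3)** from the two-field norm lemma and the split elements. -/
theorem main_of {J : Type} {Sp : J → K[X] → Prop} [IsAlgClosed Ω] [Normal K Ω]
    (hn : 0 < n) (hN : Rn n N) (hν : Fa ν) (hDf : ∀ q : D, IsIntegral K q)
    (hO : ∀ i, ∀ c ∈ OT, ν i (algebraMap K D c) ≤ 1)
    (hsm : ∀ ε : ℝ, 0 < ε → ∃ c ∈ OT, c ≠ 0 ∧ ∀ i, ν i (algebraMap K D c) < ε)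
    (hSp1 : ∀ j, Sp j 1) (hSpm : ∀ j P Q, Sp j P → Sp j Q → Sp j (P * Q))
    (hJ : Nonempty J) (hSpl : SplE n N ν Sp) (hsepD : ∀ q : D, (minpoly K q).Separable)
    (h2 : (((n * n).factorial : ℕ) : K) ≠ 0)
    (ζ : ℕ → Ω) (hζ : ∀ p : ℕ, p.Prime → p ∣ n → IsPrimitiveRoot (ζ p) p)
    {q : K} (hqO : q ∈ OT) (hq0 : q ≠ 0) (hTN : ∀ p : ℕ, p.Prime → p ∣ n → ∀ (R R' : IntermediateField K Ω) (h : R ≤ R'),
      FiniteDimensional K R → FiniteDimensional K R' → ζ p ∈ R →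
      IsGalois R (IntermediateField.extendScalars h) →
      finrank R (IntermediateField.extendScalars h) = p → ∀ c ∈ OT, c ≠ 0 →
      letI := (IntermediateField.inclusion h).toRingHom.toAlgebra
      TN OT Sp R R' (q * (p : K) ^ 2 * c) c)
    {ε : ℝ} (hε : 0 < ε) (hε1 : ε ≤ 1) : ∃ cK ∈ OT, cK ≠ 0 ∧
      ∀ (E : Type) [CommGroup E] (X : Set (Dˣ → E)), Fam N ν ε X →
        Inv1 N ν ε X (Near OT K cK) ∧
        ∀ u₁ u₂ : Dˣ, u₁ ∈ Ug D → u₂ ∈ Ug D → Bl ν ε u₁ → Bl ν ε u₂ →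
          ∀ w₁ w₂ : K, Near OT K cK w₁ → Near OT K cK w₂ → Qt N u₁ w₁ → Qt N u₂ w₂ →
            ∀ χ ∈ X, χ ⁅u₁, u₂⁆ = 1 := by
  obtain ⟨cK, hcKO, hcK0, P, hA⟩ := ar_of hn hN hν hDf hO hsm hSp1 hSpm hJ hSpl hsepD h2 ζ hζ
    hqO hq0 hTN hε
  refine ⟨cK, hcKO, hcK0, fun E _ X hX => ⟨inv1 hN hν hε hε1 hX hA,
    fun u₁ u₂ hu₁ hu₂ hb₁ hb₂ w₁ w₂ hw₁ hw₂ hq₁ hq₂ χ hχ =>
      comm3 hN hν hε hε1 hX hA hu₁ hb₁ hw₁ hq₁ hu₂ hb₂ hw₂ hq₂ χ hχ⟩⟩

end Vale.Agent.P011.H699.Odd
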