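import Vale.Agent.P011.H699.Odd.Frame

/-!
**The commutators of the unitary elements close to one: the steps of the tower.**
-/

open Module Polynomial
open scoped commutatorElement

set_option linter.unusedSectionVars false

namespace Vale.Agent.P011.H699.Odd

variable {K D : Type} [Field K] [StarRing K] [DivisionRing D] [StarRing D] [Algebra K D]
  {n : ℕ} {N : D →* K} {ι : Type} {ν : ι → AbsoluteValue D ℝ}

section balls

theorem abv_near {δ : ℝ} (hδ : δ ≤ 1) (hν : Fa ν) {i : ι} {z : D} (hz : ν i (z - 1) < δ) :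
    ν i z = 1 := by
  have h1 : ν i (z - 1) < 1 := hz.trans_le hδ
  apply le_antisymm
  · have h2 := hν.ult i (z - 1) 1
    rw [sub_add_cancel, map_one] at h2
    exact h2.trans (max_le h1.le le_rfl)
  · by_contra h3
    push Not at h3
    have h2 := hν.ult i z (-(z - 1))
    rw [neg_sub, add_sub_cancel, map_one, ← neg_sub, AbsoluteValue.map_neg] at h2
    exact absurd (h2.trans_lt (max_lt h3 h1)) (lt_irrefl _)

theorem Bl.abv {δ : ℝ} (hδ : δ ≤ 1) (hν : Fa ν) {u : Dˣ} (hu : Bl ν δ u) (i : ι) :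
    ν i (u : D) = 1 := abv_near hδ hν (hu i)

theorem Bl.mono {a b : ℝ} (hab : a ≤ b) {u : Dˣ} (h : Bl ν a u) : Bl ν b u :=
  fun i => (h i).trans_le hab

theorem Bl.mul {δ : ℝ} (hδ : δ ≤ 1) (hν : Fa ν) {u v : Dˣ} (hu : Bl ν δ u) (hv : Bl ν δ v) :
    Bl ν δ (u * v) := by
  intro i
  have h1 : ((u * v : Dˣ) : D) - 1 = ((u : D) - 1) + (u : D) * ((v : D) - 1) := by
    rw [Units.val_mul]
    noncomm_ring
  rw [h1]
  refine (hν.ult i _ _).trans_lt (max_lt (hu i) ?_)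
  rw [map_mul, hu.abv hδ hν i, one_mul]
  exact hv i

theorem Bl.inv {δ : ℝ} (hδ : δ ≤ 1) (hν : Fa ν) {u : Dˣ} (hu : Bl ν δ u) : Bl ν δ u⁻¹ := by
  intro i
  have h1 : ((u⁻¹ : Dˣ) : D) - 1 = -(((u⁻¹ : Dˣ) : D) * ((u : D) - 1)) := by
    rw [mul_sub, Units.inv_mul, mul_one, neg_sub]
  have h2 : ν i ((u⁻¹ : Dˣ) : D) = 1 := by
    have h3 : ν i ((u⁻¹ : Dˣ) : D) * ν i (u : D) = 1 := by
      rw [← map_mul, Units.inv_mul, map_one]
    rwa [hu.abv hδ hν i, mul_one] at h3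
  rw [h1, AbsoluteValue.map_neg, map_mul, h2, one_mul]
  exact hu i

/-- the balls are invariant under conjugation -/
theorem Bl.conj {δ : ℝ} {h : Dˣ} (hh : Bl ν δ h) (u : Dˣ) : Bl ν δ (u * h * u⁻¹) := by
  intro i
  have h1 : ((u * h * u⁻¹ : Dˣ) : D) - 1 = (u : D) * ((h : D) - 1) * ((u⁻¹ : Dˣ) : D) := by
    rw [Units.val_mul, Units.val_mul, mul_sub, mul_one, sub_mul, Units.mul_inv]
  have h2 : ν i (u : D) * ν i ((u⁻¹ : Dˣ) : D) = 1 := by
    rw [← map_mul, Units.mul_inv, map_one]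
  rw [h1, map_mul, map_mul, mul_right_comm, h2, one_mul]
  exact hh i

theorem Bl.comm {δ : ℝ} (hδ : δ ≤ 1) (hν : Fa ν) {u v : Dˣ} (hu : Bl ν δ u) :
    Bl ν δ ⁅u, v⁆ := by
  have h1 : ⁅u, v⁆ = u * (v * u⁻¹ * v⁻¹) := by
    rw [commutatorElement_def]
    group
  rw [h1]
  exact hu.mul hδ hν ((hu.inv hδ hν).conj v)

end balls

section grp

theorem Gg_conj {g u : Dˣ} (hg : g ∈ Gg N) (hu : u ∈ Ug D) : u * g * u⁻¹ ∈ Gg N := by
  refine ⟨mul_mem (mul_mem hu hg.1) (inv_mem hu), ?_⟩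
  rw [Units.val_mul, Units.val_mul, map_mul, map_mul, hg.2, mul_one, ← map_mul, Units.mul_inv,
    map_one]

theorem Gg_comm {u v : Dˣ} (hu : u ∈ Ug D) (hv : v ∈ Ug D) : ⁅u, v⁆ ∈ Gg N := by
  refine ⟨?_, ?_⟩
  · rw [commutatorElement_def]
    exact mul_mem (mul_mem (mul_mem hu hv) (inv_mem hu)) (inv_mem hv)
  · have h1 : N ((⁅u, v⁆ : Dˣ) : D) = ((Units.map N) ⁅u, v⁆ : Kˣ) := rfl
    rw [h1, map_commutatorElement, commutatorElement_eq_one_iff_mul_comm.mpr (mul_comm _ _),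
      Units.val_one]

theorem Qt.mul {u v : Dˣ} {a b : K} (hu : Qt N u a) (hv : Qt N v b) : Qt N (u * v) (a * b) := by
  refine ⟨mul_ne_zero hu.1 hv.1, ?_⟩
  rw [Units.val_mul, map_mul, star_mul, mul_comm (star b), mul_mul_mul_comm, hu.2, hv.2]

theorem Qt.unit {u : Dˣ} {a : K} (hu : Qt N u a) : N (u : D) = a * (star a)⁻¹ := by
  have h1 : star a ≠ 0 := star_ne_zero.mpr hu.1
  rw [eq_mul_inv_iff_mul_eq₀ h1]
  exact hu.2

theorem Qt.inv {u : Dˣ} {a : K} (hu : Qt N u a) : Qt N u⁻¹ a⁻¹ := by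
  have h1 : star a ≠ 0 := star_ne_zero.mpr hu.1
  refine ⟨inv_ne_zero hu.1, ?_⟩
  have h2 : N ((u⁻¹ : Dˣ) : D) * N (u : D) = 1 := by rw [← map_mul, Units.inv_mul, map_one]
  rw [star_inv₀]
  rw [hu.unit] at h2
  have h3 := hu.1
  field_simp at h2 ⊢
  exact h2

/-- two unitary elements of the same reduced norm -/
theorem Qt.quot {u v : Dˣ} {a : K} (hu : u ∈ Ug D) (hv : v ∈ Ug D) (h1 : Qt N u a)
    (h2 : Qt N v a) : u * v⁻¹ ∈ Gg N := by
  refine ⟨mul_mem hu (inv_mem hv), ?_⟩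
  rw [Units.val_mul, map_mul, h1.unit, h2.inv.unit, star_inv₀, inv_inv]
  have h3 : star a ≠ 0 := star_ne_zero.mpr h1.1
  have h4 := h1.1
  field_simp

end grp

section torus

theorem commute_adjoin {q y z : D} (hz : z ∈ Algebra.adjoin K {q}) (hy : Commute y q) :
    Commute y z := by
  have h1 : Algebra.adjoin K {q} ≤ Subalgebra.centralizer K {y} := by
    refine Algebra.adjoin_le ?_
    intro x hx
    rw [Set.mem_singleton_iff.mp hx]
    refine (Subalgebra.mem_centralizer_iff K).mpr fun w hw => ?_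
    rw [Set.mem_singleton_iff.mp hw]
    exact hy
  exact (Subalgebra.mem_centralizer_iff K).mp (h1 hz) y rfl

/-- **Hilbert 90, the easy half**: a unitary element of the field of `q`. -/
theorem exists_torus (hN : Rn n N) (hν : Fa ν) {q : Dˣ} (hq : q ∈ Ug D) {z : D} (hz0 : z ≠ 0)
    (hz : z ∈ Algebra.adjoin K {(q : D)}) : ∃ e : Dˣ, e ∈ Ug D ∧ Commute e q ∧ Qt N e (N z) ∧
      ∀ δ : ℝ, δ ≤ 1 → (∀ i, ν i (z - 1) < δ) → Bl ν δ e := by
  have hs0 : star z ≠ 0 := star_ne_zero.mpr hz0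
  have h1 : Commute z (q : D) := (commute_adjoin hz (Commute.refl _)).symm
  have h2 : Commute (star z) (q : D) := by
    have h3 : Commute (star z) (star (q : D)) := by
      have h4 := congrArg star h1.eq
      rw [star_mul, star_mul] at h4
      exact h4.symm
    rw [star_eq hq] at h3
    exact Commute.units_inv_right_iff.mp h3
  have h4 : Commute (star z) z := commute_adjoin hz h2
  have hN0 : N z ≠ 0 := by
    intro h0
    have h5 : N z * N z⁻¹ = 1 := by rw [← map_mul, mul_inv_cancel₀ hz0, map_one]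
    rw [h0, zero_mul] at h5
    exact zero_ne_one h5
  refine ⟨Units.mk0 (z * (star z)⁻¹) (mul_ne_zero hz0 (inv_ne_zero hs0)), ?_, ?_, ?_, ?_⟩
  · rw [mem_Ug, Units.val_mk0, star_mul, star_inv₀, star_star]
    have h5 : Commute (star z)⁻¹ z⁻¹ := Commute.inv_left₀ (Commute.inv_right₀ h4)
    calc z * (star z)⁻¹ * (z⁻¹ * star z) = z * ((star z)⁻¹ * z⁻¹) * star z := by
          simp only [mul_assoc]
      _ = z * (z⁻¹ * (star z)⁻¹) * star z := by rw [h5.eq]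
      _ = 1 := by
          rw [← mul_assoc, mul_inv_cancel₀ hz0, one_mul, inv_mul_cancel₀ hs0]
  · refine Units.ext ?_
    rw [Units.val_mul, Units.val_mul, Units.val_mk0]
    exact (h1.mul_left h2.inv_left₀).eq
  · refine ⟨hN0, ?_⟩
    rw [Units.val_mk0, ← hN.star, ← map_mul, mul_assoc, inv_mul_cancel₀ hs0, mul_one]
  · intro δ hδ hzn i
    obtain ⟨j, hj⟩ := hν.star i
    have h5 : ν i (star z - 1) < δ := by
      have h6 : ν i (star (z - 1)) < δ := by rw [← hj]; exact hzn j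
      rwa [star_sub, star_one] at h6
    have h7 : ν i (star z) = 1 := abv_near hδ hν h5
    have h8 : ν i ((star z)⁻¹) = 1 := by
      have h9 : ν i ((star z)⁻¹) * ν i (star z) = 1 := by
        rw [← map_mul, inv_mul_cancel₀ hs0, map_one]
      rwa [h7, mul_one] at h9
    have h10 : z * (star z)⁻¹ - 1 = (z - 1 + -(star z - 1)) * (star z)⁻¹ := by
      rw [← sub_eq_add_neg, sub_sub_sub_cancel_right, sub_mul, mul_inv_cancel₀ hs0]
    rw [Units.val_mk0, h10, map_mul, h8, mul_one]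
    refine (hν.ult i _ _).trans_lt (max_lt (hzn i) ?_)
    rw [AbsoluteValue.map_neg]
    exact h5

end torus

section one

variable {E : Type} [CommGroup E] {ε : ℝ} {X : Set (Dˣ → E)}

/-- **The identity**: an element `e₁` which commutes with `h q` and has the reduced norm of an
element commuting with `q` does not change `χ h`. -/
theorem key_identity (hν : Fa ν) (hε : ε ≤ 1) (hX : Fam N ν ε X) {χ : Dˣ → E} (hχ : χ ∈ X)
    {h q e₁ e₂ : Dˣ} {w : K} (hh : h ∈ Gg N) (hhb : Bl ν ε h) (hq : q ∈ Gg N) (hqb : Bl ν ε q)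
    (he₁ : e₁ ∈ Ug D) (he₂ : e₂ ∈ Ug D) (hc₁ : Commute e₁ (h * q)) (hc₂ : Commute e₂ q)
    (hw₁ : Qt N e₁ w) (hw₂ : Qt N e₂ w) : χ (e₁ * h * e₁⁻¹) = χ h := by
  have hg : e₁ * e₂⁻¹ ∈ Gg N := Qt.quot he₁ he₂ hw₁ hw₂
  have hqi : q⁻¹ ∈ Gg N := inv_mem hq
  have hqib : Bl ν ε q⁻¹ := hqb.inv hε hν
  have h1 : e₁ * h * e₁⁻¹ = (h * q) * ((e₁ * e₂⁻¹) * q⁻¹ * (e₁ * e₂⁻¹)⁻¹) := by
    have h2 : e₁ * (h * q) * e₁⁻¹ = h * q := by rw [hc₁.eq, mul_inv_cancel_right]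
    have h3 : e₂⁻¹ * q⁻¹ * e₂ = q⁻¹ := by
      rw [(hc₂.inv_inv).eq, inv_mul_cancel_right]
    calc e₁ * h * e₁⁻¹ = (e₁ * (h * q) * e₁⁻¹) * (e₁ * q⁻¹ * e₁⁻¹) := by group
      _ = (h * q) * (e₁ * (e₂⁻¹ * q⁻¹ * e₂) * e₁⁻¹) := by rw [h2, h3]
      _ = (h * q) * ((e₁ * e₂⁻¹) * q⁻¹ * (e₁ * e₂⁻¹)⁻¹) := by group
  rw [h1, hX.mul χ hχ _ _ (mul_mem hh hq) (hhb.mul hε hν hqb) (Gg_conj hqi hg.1) (hqib.conj _),
    hX.inv χ hχ _ _ hg hqi hqib, ← hX.mul χ hχ _ _ (mul_mem hh hq) (hhb.mul hε hν hqb) hqi hqib,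
    mul_inv_cancel_right]

/-- **One step of the tower for the invariance.** -/
theorem cl1_step (hN : Rn n N) (hν : Fa ν) (hε0 : 0 < ε) (hε : ε ≤ 1) (hX : Fam N ν ε X)
    {PK : K → Prop} {R R' : Type} [Field R] [Algebra K R] [Field R'] [Algebra K R']
    [FiniteDimensional K R'] {P : R → Prop} {P' : R' → Prop} (hst : StepH N ν PK R R' P P')
    {h : Dˣ} (hh : h ∈ Gg N) (hhb : Bl ν ε h) (hcl : Cl1 N X h R' P') : Cl1 N X h R P := by
  classical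
  intro χ hχ x hx hPx u hu hux
  obtain ⟨q, hq, hqb, x₁, hx₁, hPx₁, hz⟩ := hst x hx hPx {1, h} (by
    intro a ha
    rcases Finset.mem_insert.mp ha with rfl | ha
    · exact one_mem _
    · rw [Finset.mem_singleton.mp ha]
      exact hh.1) ε hε0
  obtain ⟨z₂, hz₂0, hz₂, hNz₂, -, -⟩ := hz 1 (Finset.mem_insert_self _ _)
  obtain ⟨z₁, hz₁0, hz₁, hNz₁, -, -⟩ := hz h (Finset.mem_insert_of_mem (Finset.mem_singleton_self _))
  obtain ⟨e₁, he₁, hc₁, hw₁, -⟩ := exists_torus hN hν (mul_mem hh.1 hq.1) hz₁0 hz₁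
  obtain ⟨e₂, he₂, hc₂, hw₂, -⟩ := exists_torus hN hν (mul_mem (one_mem _) hq.1) hz₂0 hz₂
  rw [one_mul] at hc₂
  have hn₁ : Algebra.norm K x₁ ≠ 0 := Algebra.norm_ne_zero_iff.mpr hx₁
  have hNN : N z₁ = N z₂ := mul_right_cancel₀ hn₁ (hNz₁.trans hNz₂.symm)
  rw [← hNN] at hw₂
  -- the remaining factor
  have hu' : e₁⁻¹ * u ∈ Ug D := mul_mem (inv_mem he₁) hu
  have hux' : Qt N (e₁⁻¹ * u) (Algebra.norm K x₁) := by
    have h1 := hw₁.inv.mul hux
    rwa [← hNz₁, inv_mul_cancel_left₀ hw₁.1] at h1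
  have h1 : u * h * u⁻¹ = e₁ * ((e₁⁻¹ * u) * h * (e₁⁻¹ * u)⁻¹) * e₁⁻¹ := by group
  have h2 := hcl _ (hX.stab χ hχ e₁ he₁) x₁ hx₁ hPx₁ _ hu' hux'
  rw [h1]
  exact h2.trans (key_identity hν hε hX hχ hh hhb hq hqb he₁ he₂ hc₁ hc₂ hw₁ hw₂)

/-- **The top of the tower**: the field of `h` is contained in `R`. -/
theorem cl1_base (hν : Fa ν) (hN : Rn n N) (hX : Fam N ν ε X) {R : Type} [Field R] [Algebra K R]
    {P : R → Prop} {h : Dˣ} (hh : h ∈ Gg N) (hhb : Bl ν ε h)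
    (hb : ∀ x : R, x ≠ 0 → ∃ z : D, z ≠ 0 ∧ z ∈ Algebra.adjoin K {(h : D)} ∧
      N z = Algebra.norm K x) : Cl1 N X h R P := by
  intro χ hχ x hx hPx u hu hux
  obtain ⟨z, hz0, hz, hNz⟩ := hb x hx
  obtain ⟨e, he, hc, hw, -⟩ := exists_torus hN hν hh.1 hz0 hz
  rw [hNz] at hw
  have hg : u * e⁻¹ ∈ Gg N := Qt.quot hu he hux hw
  have h1 : u * h * u⁻¹ = (u * e⁻¹) * h * (u * e⁻¹)⁻¹ := by
    have h2 : e * h * e⁻¹ = h := by rw [hc.eq, mul_inv_cancel_right]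
    calc u * h * u⁻¹ = (u * e⁻¹) * (e * h * e⁻¹) * (u * e⁻¹)⁻¹ := by group
      _ = _ := by rw [h2]
  rw [h1]
  exact hX.inv χ hχ _ _ hg hh hhb

end one

end Vale.Agent.P011.H699.Odd
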