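import Vale.Agent.P011.H699.Odd.StepOne

/-!
**The commutators of the unitary elements close to one: the steps of the tower for the pairing.**
-/

open Module Polynomial
open scoped commutatorElement

set_option linter.unusedSectionVars false

namespace Vale.Agent.P011.H699.Odd

variable {K D : Type} [Field K] [StarRing K] [DivisionRing D] [StarRing D] [Algebra K D]
  {n : ℕ} {N : D →* K} {ι : Type} {ν : ι → AbsoluteValue D ℝ}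
  {E : Type} [CommGroup E] {ε : ℝ} {X : Set (Dˣ → E)}

/-- The invariance of the characters under the unitary elements whose reduced norm is `w / star w`
with `PK w`. -/
def Inv1 (N : D →* K) {ι : Type} (ν : ι → AbsoluteValue D ℝ) (ε : ℝ) (X : Set (Dˣ → E))
    (PK : K → Prop) : Prop :=
  ∀ χ ∈ X, ∀ (u : Dˣ) (w : K), u ∈ Ug D → PK w → Qt N u w → ∀ h : Dˣ, h ∈ Gg N → Bl ν ε h →
    χ (u * h * u⁻¹) = χ h

theorem Fam.one (hε0 : 0 < ε) (hX : Fam N ν ε X) {χ : Dˣ → E} (hχ : χ ∈ X) :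
    χ 1 = 1 := by
  have h1 : Bl ν ε (1 : Dˣ) := fun i => by
    rw [Units.val_one, sub_self, map_zero]
    exact hε0
  have h2 := hX.mul χ hχ 1 1 (one_mem _) h1 (one_mem _) h1
  rw [mul_one] at h2
  exact left_eq_mul.mp h2

theorem Fam.map_inv (hν : Fa ν) (hε0 : 0 < ε) (hε : ε ≤ 1) (hX : Fam N ν ε X) {χ : Dˣ → E}
    (hχ : χ ∈ X) {h : Dˣ} (hh : h ∈ Gg N) (hhb : Bl ν ε h) : χ h⁻¹ = (χ h)⁻¹ := by
  have h2 := hX.mul χ hχ h h⁻¹ hh hhb (inv_mem hh) (hhb.inv hε hν)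
  rw [mul_inv_cancel, hX.one hε0 hχ] at h2
  exact (inv_eq_of_mul_eq_one_right h2.symm).symm

/-- the commutator with an element of reduced norm one -/
theorem comm_inv1 (hν : Fa ν) (hε0 : 0 < ε) (hε : ε ≤ 1) (hX : Fam N ν ε X) {PK : K → Prop}
    (hI : Inv1 N ν ε X PK) {χ : Dˣ → E} (hχ : χ ∈ X) {u g : Dˣ} {w : K} (hu : u ∈ Ug D)
    (hw : PK w) (huw : Qt N u w) (hg : g ∈ Gg N) (hgb : Bl ν ε g) : χ ⁅u, g⁆ = 1 := by
  rw [commutatorElement_def, hX.mul χ hχ _ _ (Gg_conj hg hu) (hgb.conj u) (inv_mem hg)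
    (hgb.inv hε hν), hI χ hχ u w hu hw huw g hg hgb, hX.map_inv hν hε0 hε hχ hg hgb,
    mul_inv_cancel]

/-- the commutator is multiplicative in the second variable, up to conjugation -/
theorem comm_mul (hν : Fa ν) (hε : ε ≤ 1) (hX : Fam N ν ε X) {χ : Dˣ → E} (hχ : χ ∈ X)
    {u v w : Dˣ} (hu : u ∈ Ug D) (hub : Bl ν ε u) (hv : v ∈ Ug D) (hw : w ∈ Ug D) :
    χ ⁅u, v * w⁆ = χ ⁅u, v⁆ * χ (v * ⁅u, w⁆ * v⁻¹) := by
  have h1 : ⁅u, v * w⁆ = ⁅u, v⁆ * (v * ⁅u, w⁆ * v⁻¹) := by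
    simp only [commutatorElement_def]
    group
  rw [h1]
  exact hX.mul χ hχ _ _ (Gg_comm hu hv) (hub.comm hε hν) (Gg_conj (Gg_comm hu hw) hv)
    ((hub.comm hε hν).conj v)

/-- **One step of the tower for the pairing.** -/
theorem cl3_step (hN : Rn n N) (hν : Fa ν) (hε0 : 0 < ε) (hε : ε ≤ 1) (hX : Fam N ν ε X)
    {PK : K → Prop} (hI : Inv1 N ν ε X PK) {R R' : Type} [Field R] [Algebra K R] [Field R']
    [Algebra K R'] [FiniteDimensional K R'] {P : R → Prop} {P' : R' → Prop}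
    (hst : StepH N ν PK R R' P P') {u₁ : Dˣ} (hu₁ : u₁ ∈ Ug D)
    (hu₁b : Bl ν ε u₁) {w₁ : K} (hw₁ : PK w₁) (huw₁ : Qt N u₁ w₁)
    (hcl : Cl3 N ν ε X u₁ R' P') : Cl3 N ν ε X u₁ R P := by
  classical
  intro χ hχ x hx hPx u hu hub hux
  obtain ⟨g, hg, hgb, x₁, hx₁, hPx₁, hz⟩ := hst x hx hPx {u₁} (by
    intro a ha
    rw [Finset.mem_singleton.mp ha]
    exact hu₁) ε hε0
  obtain ⟨z, hz0, hzm, hNz, hPz, hzn⟩ := hz u₁ (Finset.mem_singleton_self _)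
  obtain ⟨e, he, hc, hw, heb⟩ := exists_torus hN hν (mul_mem hu₁ hg.1) hz0 hzm
  have hebε : Bl ν ε e := heb ε hε hzn
  have hu' : e⁻¹ * u ∈ Ug D := mul_mem (inv_mem he) hu
  have hub' : Bl ν ε (e⁻¹ * u) := (hebε.inv hε hν).mul hε hν hub
  have hux' : Qt N (e⁻¹ * u) (Algebra.norm K x₁) := by
    have h1 := hw.inv.mul hux
    rwa [← hNz, inv_mul_cancel_left₀ hw.1] at h1
  have h1 : χ ⁅u₁, u⁆ = χ ⁅u₁, e⁆ * χ (e * ⁅u₁, e⁻¹ * u⁆ * e⁻¹) := by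
    rw [← comm_mul hν hε hX hχ hu₁ hu₁b he hu', mul_inv_cancel_left]
  have h2 : χ (e * ⁅u₁, e⁻¹ * u⁆ * e⁻¹) = 1 :=
    hcl _ (hX.stab χ hχ e he) x₁ hx₁ hPx₁ _ hu' hub' hux'
  -- the commutator with the element of the torus of `u₁ g`
  have hgi : g⁻¹ ∈ Gg N := inv_mem hg
  have hgib : Bl ν ε g⁻¹ := hgb.inv hε hν
  have hvU : u₁ * g ∈ Ug D := mul_mem hu₁ hg.1
  have hvw : Qt N (u₁ * g) w₁ := by
    refine ⟨huw₁.1, ?_⟩
    rw [Units.val_mul, map_mul, hg.2, mul_one]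
    exact huw₁.2
  have h3 : ⁅u₁, e⁆ = (u₁ * g) * ⁅g⁻¹, e⁆ * (u₁ * g)⁻¹ := by
    have h4 : (u₁ * g) * e⁻¹ * (u₁ * g)⁻¹ = e⁻¹ := by
      rw [hc.symm.inv_right.eq, mul_inv_cancel_right]
    have h5 : (u₁ * g) * ⁅g⁻¹, e⁆ * (u₁ * g)⁻¹ =
        u₁ * e * g * ((u₁ * g)⁻¹ * ((u₁ * g) * e⁻¹ * (u₁ * g)⁻¹)) := by
      rw [commutatorElement_def]
      group
    rw [h5, h4, commutatorElement_def]
    group
  have h4 : χ ⁅g⁻¹, e⁆ = 1 := by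
    rw [← commutatorElement_inv, hX.map_inv hν hε0 hε hχ (Gg_comm he hgi.1) (hebε.comm hε hν),
      comm_inv1 hν hε0 hε hX hI hχ he hPz hw hgi hgib, inv_one]
  rw [h1, h2, mul_one, h3, hI χ hχ _ w₁ hvU hw₁ hvw _ (Gg_comm hgi.1 he) (hgib.comm hε hν), h4]

/-- **The top of the tower**: the field of `u₁` is contained in `R`. -/
theorem cl3_base (hN : Rn n N) (hν : Fa ν) (hε0 : 0 < ε) (hε : ε ≤ 1) (hX : Fam N ν ε X)
    {PK : K → Prop} (hI : Inv1 N ν ε X PK) {R : Type} [Field R] [Algebra K R]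
    {P : R → Prop} {u₁ : Dˣ} (hu₁ : u₁ ∈ Ug D) {w₁ : K} (hw₁ : PK w₁)
    (huw₁ : Qt N u₁ w₁)
    (hb : ∀ x : R, x ≠ 0 → P x → ∃ z : D, z ≠ 0 ∧ z ∈ Algebra.adjoin K {(u₁ : D)} ∧
      N z = Algebra.norm K x ∧ ∀ i, ν i (z - 1) < ε) : Cl3 N ν ε X u₁ R P := by
  intro χ hχ x hx hPx u hu hub hux
  obtain ⟨z, hz0, hz, hNz, hzn⟩ := hb x hx hPx
  obtain ⟨e, he, hc, hw, heb⟩ := exists_torus hN hν hu₁ hz0 hz
  rw [hNz] at hw
  have hebε : Bl ν ε e := heb ε hε hzn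
  have hg : u * e⁻¹ ∈ Gg N := Qt.quot hu he hux hw
  have hgb : Bl ν ε (u * e⁻¹) := hub.mul hε hν (hebε.inv hε hν)
  have h1 : ⁅u₁, u⁆ = ⁅u₁, u * e⁻¹⁆ := by
    have h2 : ⁅u₁, e⁆ = 1 := commutatorElement_eq_one_iff_commute.mpr hc.symm
    have h3 : ⁅u₁, (u * e⁻¹) * e⁆ = ⁅u₁, u * e⁻¹⁆ * ((u * e⁻¹) * ⁅u₁, e⁆ * (u * e⁻¹)⁻¹) := by
      simp only [commutatorElement_def]
      group
    rw [h2, mul_one, mul_inv_cancel, mul_one, inv_mul_cancel_right] at h3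
    exact h3
  rw [h1]
  exact comm_inv1 hν hε0 hε hX hI hχ hu₁ hw₁ huw₁ hg hgb

end Vale.Agent.P011.H699.Odd
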