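import Vale.Agent.P011.H699.Odd.Tower

/-!
**The commutators of the unitary elements close to one: chains of steps for one element.**

The nearness predicates may depend on the element.
-/

open Module
open scoped commutatorElement

set_option linter.unusedSectionVars false

namespace Vale.Agent.P011.H699.Odd

variable {K D : Type} [Field K] [StarRing K] [DivisionRing D] [StarRing D] [Algebra K D]
  {n : ℕ} {N : D →* K} {ι : Type} {ν : ι → AbsoluteValue D ℝ}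
  {E : Type} [CommGroup E] {ε : ℝ} {X : Set (Dˣ → E)} {Ω : Type} [Field Ω] [Algebra K Ω]

open IntermediateField in
/-- A chain of arithmetic steps which begins with the field `R` and the property `P` and ends
above the field `F`. -/
inductive Ch (N : D →* K) {ι : Type} (ν : ι → AbsoluteValue D ℝ) (PK : K → Prop) (ε : ℝ)
    {Ω : Type} [Field Ω] [Algebra K Ω] (F : IntermediateField K Ω) (φ : F →ₐ[K] D) :
    ∀ R : IntermediateField K Ω, (R → Prop) → Prop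
  | top (R : IntermediateField K Ω) (P : R → Prop) (h : F ≤ R) (hR : FiniteDimensional K R)
      (hP : ∀ x : R, x ≠ 0 → P x → ∀ i,
        ν i (φ (letI := (IntermediateField.inclusion h).toRingHom.toAlgebra
          Algebra.norm F x) - 1) < ε) : Ch N ν PK ε F φ R P
  | step (R R' : IntermediateField K Ω) (P : R → Prop) (P' : R' → Prop)
      (hR' : FiniteDimensional K R') (hst : StepH N ν PK R R' P P')
      (hch : Ch N ν PK ε F φ R' P') : Ch N ν PK ε F φ R P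

/-- **Good elements**: the field of `h` is the end of chains which begin with fields of degree
prime to `p`; at the bottom of the chains the elements with `PB` are allowed. -/
def GoodC (n : ℕ) (N : D →* K) {ι : Type} (ν : ι → AbsoluteValue D ℝ) (PK PB : K → Prop) (ε : ℝ)
    (Ω : Type) [Field Ω] [Algebra K Ω] (h : Dˣ) : Prop :=
  ∃ (F : IntermediateField K Ω) (φ : F →ₐ[K] D), finrank K F = n ∧ FiniteDimensional K F ∧
    (∀ y, φ y ∈ Algebra.adjoin K {(h : D)}) ∧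
    ∀ p : ℕ, p.Prime → p ∣ n → ∃ (R : IntermediateField K Ω) (P : R → Prop),
      FiniteDimensional K R ∧ ¬ p ∣ finrank K R ∧ Ch N ν PK ε F φ R P ∧
      ∀ w : K, w ≠ 0 → PB w → ∃ x : R, x ≠ 0 ∧ P x ∧ Algebra.norm K x = w ^ finrank K R

variable {PK PB : K → Prop}

theorem GoodC.mono_pb {PB' : K → Prop} {h : Dˣ} (hP : ∀ w, PB' w → PB w)
    (hg : GoodC n N ν PK PB ε Ω h) : GoodC n N ν PK PB' ε Ω h := by
  obtain ⟨F, φ, hF, hFf, hφ, H⟩ := hg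
  refine ⟨F, φ, hF, hFf, hφ, fun p hp hpn => ?_⟩
  obtain ⟨R, P, hR, hpR, hc, hb⟩ := H p hp hpn
  exact ⟨R, P, hR, hpR, hc, fun w hw0 hw => hb w hw0 (hP w hw)⟩

theorem Ch.cl1 (hN : Rn n N) (hν : Fa ν) (hε0 : 0 < ε) (hε : ε ≤ 1) (hX : Fam N ν ε X)
    {h : Dˣ} (hh : h ∈ Gg N) (hhb : Bl ν ε h) {F : IntermediateField K Ω} {φ : F →ₐ[K] D}
    (hF : finrank K F = n) (hFf : FiniteDimensional K F)
    (hφ : ∀ y, φ y ∈ Algebra.adjoin K {(h : D)}) {R : IntermediateField K Ω} {P : R → Prop}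
    (hc : Ch N ν PK ε F φ R P) : Cl1 N X h R P := by
  induction hc with
  | top R P hFR hR hP =>
    exact cl1_base hν hN hX hh hhb fun x hx => ⟨_, exists_norm hN hFR φ hF hFf hR hφ x hx⟩
  | step R R' P P' hR' hst hch ih => exact cl1_step hN hν hε0 hε hX hst hh hhb ih

theorem Ch.cl3 (hN : Rn n N) (hν : Fa ν) (hε0 : 0 < ε) (hε : ε ≤ 1) (hX : Fam N ν ε X)
    (hI : Inv1 N ν ε X PK) {u₁ : Dˣ} (hu₁ : u₁ ∈ Ug D) (hu₁b : Bl ν ε u₁) {w₁ : K}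
    (hw₁ : PK w₁) (huw₁ : Qt N u₁ w₁) {F : IntermediateField K Ω} {φ : F →ₐ[K] D}
    (hF : finrank K F = n) (hFf : FiniteDimensional K F)
    (hφ : ∀ y, φ y ∈ Algebra.adjoin K {(u₁ : D)}) {R : IntermediateField K Ω} {P : R → Prop}
    (hc : Ch N ν PK ε F φ R P) : Cl3 N ν ε X u₁ R P := by
  induction hc with
  | top R P hFR hR hP =>
    exact cl3_base hN hν hε0 hε hX hI hu₁ hw₁ huw₁ fun x hx hPx =>
      ⟨_, (exists_norm hN hFR φ hF hFf hR hφ x hx).1,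
        (exists_norm hN hFR φ hF hFf hR hφ x hx).2.1,
        (exists_norm hN hFR φ hF hFf hR hφ x hx).2.2, hP x hx hPx⟩
  | step R R' P P' hR' hst hch ih => exact cl3_step hN hν hε0 hε hX hI hst hu₁ hu₁b hw₁ huw₁ ih

/-- **The invariance for a good element.** -/
theorem inv_goodC (hN : Rn n N) (hν : Fa ν) (hε0 : 0 < ε) (hε : ε ≤ 1)
    (hX : Fam N ν ε X) {h : Dˣ} (hh : h ∈ Gg N) (hhb : Bl ν ε h)
    (hg : GoodC n N ν PK PB ε Ω h) {u : Dˣ} (hu : u ∈ Ug D) {w : K} (hw : PB w)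
    (huw : Qt N u w) : ∀ χ ∈ X, χ (u * h * u⁻¹) = χ h := by
  obtain ⟨F, φ, hF, hFf, hφ, htow⟩ := hg
  have key : u ∈ StS X hX.stab h := by
    refine H327.Tower.mem_of_pow_mem _ u (n := n) ?_ fun p hp hpn => ?_
    · obtain ⟨β, -, hβg, hβc⟩ := pow_split hN hu
      refine ⟨pow_mem hu n, fun χ hχ => ?_⟩
      have h1 : u ^ n * h * (u ^ n)⁻¹ = (u ^ n * β⁻¹) * h * (u ^ n * β⁻¹)⁻¹ := by
        have h2 : β⁻¹ * h * β = h := by
          rw [(hβc h).inv_left.eq, inv_mul_cancel_right]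
        calc u ^ n * h * (u ^ n)⁻¹ = u ^ n * (β⁻¹ * h * β) * (u ^ n)⁻¹ := by rw [h2]
          _ = _ := by group
      rw [h1]
      exact hX.inv χ hχ _ _ hβg hh hhb
    · obtain ⟨R, P, hRf, hpR, hc, hbot⟩ := htow p hp hpn
      refine ⟨finrank K R, hpR, pow_mem hu _, fun χ hχ => ?_⟩
      obtain ⟨x, hx, hPx, hnx⟩ := hbot w huw.1 hw
      refine hc.cl1 hN hν hε0 hε hX hh hhb hF hFf hφ χ hχ x hx hPx _ (pow_mem hu _) ?_
      rw [hnx]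
      exact huw.pow _
  exact key.2

/-- The elements of reduced norm one close to one for which the invariance holds. -/
def S1 (hν : Fa ν) (hε0 : 0 < ε) (hε : ε ≤ 1) (hX : Fam N ν ε X) (PB : K → Prop) :
    Subgroup Dˣ where
  carrier := {h | h ∈ Gg N ∧ Bl ν ε h ∧ ∀ χ ∈ X, ∀ u ∈ Ug D, ∀ w : K, PB w → Qt N u w →
    χ (u * h * u⁻¹) = χ h}
  mul_mem' := by
    rintro a b ⟨ha, hab, ha'⟩ ⟨hb, hbb, hb'⟩
    refine ⟨mul_mem ha hb, hab.mul hε hν hbb, fun χ hχ u hu w hw huw => ?_⟩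
    have h1 : u * (a * b) * u⁻¹ = (u * a * u⁻¹) * (u * b * u⁻¹) := by group
    rw [h1, hX.mul χ hχ _ _ (Gg_conj ha hu) (hab.conj u) (Gg_conj hb hu) (hbb.conj u),
      hX.mul χ hχ _ _ ha hab hb hbb, ha' χ hχ u hu w hw huw, hb' χ hχ u hu w hw huw]
  one_mem' := by
    refine ⟨one_mem _, fun i => ?_, fun χ _ u _ w _ _ => by rw [mul_one, mul_inv_cancel]⟩
    rw [Units.val_one, sub_self, map_zero]
    exact hε0
  inv_mem' := by
    rintro a ⟨ha, hab, ha'⟩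
    refine ⟨inv_mem ha, hab.inv hε hν, fun χ hχ u hu w hw huw => ?_⟩
    have h1 : u * a⁻¹ * u⁻¹ = (u * a * u⁻¹)⁻¹ := by group
    rw [h1, hX.map_inv hν hε0 hε hχ (Gg_conj ha hu) (hab.conj u),
      hX.map_inv hν hε0 hε hχ ha hab, ha' χ hχ u hu w hw huw]

theorem mem_S1 {hν : Fa ν} {hε0 : 0 < ε} {hε : ε ≤ 1} {hX : Fam N ν ε X} {h : Dˣ} :
    h ∈ S1 hν hε0 hε hX PB ↔ h ∈ Gg N ∧ Bl ν ε h ∧ ∀ χ ∈ X, ∀ u ∈ Ug D, ∀ w : K, PB w →
      Qt N u w → χ (u * h * u⁻¹) = χ h := Iff.rfl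

/-- the group is normalised by the unitary elements -/
theorem S1_conj {hν : Fa ν} {hε0 : 0 < ε} {hε : ε ≤ 1} {hX : Fam N ν ε X} {h : Dˣ}
    (hh : h ∈ S1 hν hε0 hε hX PB) {a : Dˣ} (ha : a ∈ Ug D) :
    a * h * a⁻¹ ∈ S1 hν hε0 hε hX PB := by
  refine ⟨Gg_conj hh.1 ha, hh.2.1.conj a, fun χ hχ u hu w hw huw => ?_⟩
  have h1 : u * (a * h * a⁻¹) * u⁻¹ = a * ((a⁻¹ * u * a) * h * (a⁻¹ * u * a)⁻¹) * a⁻¹ := by
    group
  have h2 : a⁻¹ * u * a ∈ Ug D := mul_mem (mul_mem (inv_mem ha) hu) ha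
  have h3 : N ((a⁻¹ * u * a : Dˣ) : D) = N (u : D) := by
    rw [Units.val_mul, Units.val_mul, map_mul, map_mul, mul_right_comm, ← map_mul,
      Units.inv_mul, map_one, one_mul]
  have h4 : Qt N (a⁻¹ * u * a) w := ⟨huw.1, by rw [h3]; exact huw.2⟩
  rw [h1]
  exact hh.2.2 _ (hX.stab χ hχ a ha) _ h2 w hw h4

/-- **(E1)** for one element. -/
theorem inv1C {Ω₂ : Type} [Field Ω₂] [Algebra K Ω₂] (hN : Rn n N) (hν : Fa ν) (hε0 : 0 < ε)
    (hε : ε ≤ 1) (hX : Fam N ν ε X)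
    {h : Dˣ} (hh : h ∈ Gg N) (hhb : Bl ν ε h) {g : Dˣ} (hg : g ∈ Gg N) (hgb : Bl ν ε g)
    (hg1 : GoodC n N ν PK PB ε Ω g) (hg2 : GoodC n N ν PK PB ε Ω₂ (h * g)) :
    ∀ χ ∈ X, ∀ (u : Dˣ) (w : K), u ∈ Ug D → PB w → Qt N u w → χ (u * h * u⁻¹) = χ h := by
  intro χ hχ u w hu hw huw
  have h1 := inv_goodC hN hν hε0 hε hX hg hgb hg1 hu hw huw χ hχ
  have h2 := inv_goodC hN hν hε0 hε hX (mul_mem hh hg) (hhb.mul hε hν hgb) hg2 hu hw huw χ hχ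
  have h3 : u * (h * g) * u⁻¹ = (u * h * u⁻¹) * (u * g * u⁻¹) := by group
  rw [h3, hX.mul χ hχ _ _ (Gg_conj hh hu) (hhb.conj u) (Gg_conj hg hu) (hgb.conj u), h1,
    hX.mul χ hχ _ _ hh hhb hg hgb] at h2
  exact mul_right_cancel h2

theorem Bl.one (hε0 : 0 < ε) : Bl ν ε (1 : Dˣ) := fun i => by
  rw [Units.val_one, sub_self, map_zero]
  exact hε0

theorem Bl.pow (hν : Fa ν) (hε0 : 0 < ε) (hε : ε ≤ 1) {u : Dˣ} (hu : Bl ν ε u) (m : ℕ) :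
    Bl ν ε (u ^ m) := by
  induction m with
  | zero => rw [pow_zero]; exact Bl.one hε0
  | succ m ih => rw [pow_succ]; exact Bl.mul hε hν ih hu

/-- **(E3), for a good element.** -/
theorem comm_goodC (hN : Rn n N) (hν : Fa ν) (hε0 : 0 < ε) (hε : ε ≤ 1)
    (hX : Fam N ν ε X) (hI : Inv1 N ν ε X PK)
    (hnear : ∀ w : K, w ≠ 0 → PB w → ∀ i, ν i (algebraMap K D w - 1) < ε)
    {u₁ u₂ : Dˣ} (hu₁ : u₁ ∈ Ug D)
    (hu₁b : Bl ν ε u₁) {w₁ : K} (hw₁ : PK w₁) (huw₁ : Qt N u₁ w₁)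
    (hg : GoodC n N ν PK PB ε Ω u₁)
    (hu₂ : u₂ ∈ Ug D) (hu₂b : Bl ν ε u₂) {w₂ : K} (hw₂ : PB w₂) (huw₂ : Qt N u₂ w₂) :
    ∀ χ ∈ X, χ ⁅u₁, u₂⁆ = 1 := by
  obtain ⟨F, φ, hF, hFf, hφ, htow⟩ := hg
  have key : u₂ ∈ CoS X hν hε hX hu₁ hu₁b := by
    refine H327.Tower.mem_of_pow_mem _ u₂ (n := n) ?_ fun p hp hpn => ?_
    · obtain ⟨β, hβ, hβg, hβc⟩ := pow_split hN hu₂
      refine ⟨pow_mem hu₂ n, fun χ hχ => ?_⟩
      -- `β` is close to one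
      have hβb : Bl ν ε β := by
        have h1 : (w₂ : K) ≠ 0 := huw₂.1
        have h2 : star w₂ ≠ 0 := star_ne_zero.mpr h1
        have ha0 : algebraMap K D w₂ ≠ 0 := (map_ne_zero _).mpr h1
        set a : Dˣ := Units.mk0 _ ha0 with ha
        have hb0 : algebraMap K D (star w₂) ≠ 0 := (map_ne_zero _).mpr h2
        set b : Dˣ := Units.mk0 _ hb0 with hb
        have hab : β = a * b⁻¹ := by
          refine Units.ext ?_
          rw [hβ, Units.val_mul, ha, Units.val_mk0, hb, Units.val_inv_eq_inv_val,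
            Units.val_mk0, ← map_inv₀, ← map_mul, huw₂.unit]
        have han : Bl ν ε a := fun i => hnear w₂ h1 hw₂ i
        have hbn : Bl ν ε b := fun i => by
          obtain ⟨j, hj⟩ := hν.star i
          have h3 := hnear w₂ h1 hw₂ j
          rw [hj, star_sub, star_one, hN.star_alg] at h3
          exact h3
        rw [hab]
        exact han.mul hε hν (hbn.inv hε hν)
      have hgb : Bl ν ε (u₂ ^ n * β⁻¹) :=
        Bl.mul hε hν (hu₂b.pow hν hε0 hε n) (hβb.inv hε hν)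
      have h1 : ⁅u₁, u₂ ^ n⁆ = ⁅u₁, u₂ ^ n * β⁻¹⁆ := by
        have h2 : β⁻¹ * u₁⁻¹ * β = u₁⁻¹ := by
          rw [(hβc u₁).inv_inv.eq, inv_mul_cancel_right]
        have h3 : ⁅u₁, u₂ ^ n * β⁻¹⁆ = u₁ * u₂ ^ n * (β⁻¹ * u₁⁻¹ * β) * (u₂ ^ n)⁻¹ := by
          rw [commutatorElement_def]
          group
        rw [h3, h2, commutatorElement_def]
      rw [h1]
      exact comm_inv1 hν hε0 hε hX hI hχ hu₁ hw₁ huw₁ hβg hgb
    · obtain ⟨R, P, hRf, hpR, hc, hbot⟩ := htow p hp hpn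
      refine ⟨finrank K R, hpR, pow_mem hu₂ _, fun χ hχ => ?_⟩
      obtain ⟨x, hx, hPx, hnx⟩ := hbot w₂ huw₂.1 hw₂
      refine hc.cl3 hN hν hε0 hε hX hI hu₁ hu₁b hw₁ huw₁ hF hFf hφ χ hχ x hx hPx _
        (pow_mem hu₂ _) (hu₂b.pow hν hε0 hε _) ?_
      rw [hnx]
      exact huw₂.pow _
  exact key.2

/-- **(E3)** The characters are trivial on the commutators of the unitary elements close to
one. -/
theorem comm3C (hN : Rn n N) (hν : Fa ν) (hε0 : 0 < ε) (hε : ε ≤ 1)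
    (hX : Fam N ν ε X) (hI : Inv1 N ν ε X PK) (hBK : ∀ w : K, PB w → PK w)
    (hnear : ∀ w : K, w ≠ 0 → PB w → ∀ i, ν i (algebraMap K D w - 1) < ε)
    {u₁ u₂ : Dˣ} (hu₁ : u₁ ∈ Ug D)
    (hu₁b : Bl ν ε u₁) {w₁ : K} (hw₁ : PK w₁) (huw₁ : Qt N u₁ w₁)
    (hu₂ : u₂ ∈ Ug D) (hu₂b : Bl ν ε u₂) {w₂ : K} (hw₂ : PB w₂) (huw₂ : Qt N u₂ w₂)
    {g : Dˣ} (hg : g ∈ Gg N) (hgb : Bl ν ε g) (hg1 : GoodC n N ν PK PB ε Ω (u₁ * g)) :
    ∀ χ ∈ X, χ ⁅u₁, u₂⁆ = 1 := by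
  intro χ hχ
  have hvU : u₁ * g ∈ Ug D := mul_mem hu₁ hg.1
  have hvb : Bl ν ε (u₁ * g) := hu₁b.mul hε hν hgb
  have hvw : Qt N (u₁ * g) w₁ := by
    refine ⟨huw₁.1, ?_⟩
    rw [Units.val_mul, map_mul, hg.2, mul_one]
    exact huw₁.2
  have h1 := comm_goodC hN hν hε0 hε hX hI hnear hvU hvb hw₁ hvw hg1 hu₂ hu₂b hw₂ huw₂ χ hχ
  have h2 : ⁅u₁ * g, u₂⁆ = (u₁ * ⁅g, u₂⁆ * u₁⁻¹) * ⁅u₁, u₂⁆ := by
    simp only [commutatorElement_def]
    group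
  have h3 : χ (u₁ * ⁅g, u₂⁆ * u₁⁻¹) = 1 := by
    rw [hI χ hχ u₁ w₁ hu₁ hw₁ huw₁ _ (Gg_comm hg.1 hu₂) (hgb.comm hε hν),
      ← commutatorElement_inv, hX.map_inv hν hε0 hε hχ (Gg_comm hu₂ hg.1) (hu₂b.comm hε hν),
      comm_inv1 hν hε0 hε hX hI hχ hu₂ (hBK w₂ hw₂) huw₂ hg hgb, inv_one]
  rw [h2, hX.mul χ hχ _ _ (Gg_conj (Gg_comm hg.1 hu₂) hu₁) ((hgb.comm hε hν).conj _)
    (Gg_comm hu₁ hu₂) (hu₁b.comm hε hν), h3, one_mul] at h1
  exact h1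

/-- a family of characters on a smaller ball -/
theorem Fam.mono {ε' : ℝ} (h : ε' ≤ ε) (hX : Fam N ν ε X) : Fam N ν ε' X where
  mul χ hχ g k hg hgb hk hkb := hX.mul χ hχ g k hg (hgb.mono h) hk (hkb.mono h)
  inv χ hχ g k hg hk hkb := hX.inv χ hχ g k hg hk (hkb.mono h)
  stab := hX.stab

end Vale.Agent.P011.H699.Odd
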